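import Vale.Agent.P139.H730.Modes

/-!
# Quotient form of mode stability

`ModeStable` implies: if `(LL - λ)(f,g)` is a combination of symmetry modes and `Re λ ≥ 0`, then
`(f,g)` is a combination of symmetry modes.
-/

open scoped ComplexConjugate ContDiff
open Complex

namespace Vale.Agent.P139.H730

open Vale.Agent.P139.BU

variable {d : ℕ}

section lin2

variable {f g f' g' : E d → ℂ}

lemma diffAt2 (hf : ContDiff ℝ 2 f) (x : E d) : DifferentiableAt ℝ f x :=
  (hf.differentiable (by simp)) x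

lemma contDiff_pd2 (hf : ContDiff ℝ 2 f) (j : Fin d) : ContDiff ℝ 1 (pd j f) :=
  (hf.fderiv_right (m := 1) (by norm_num)).clm_apply contDiff_const

lemma diffAt_pd2 (hf : ContDiff ℝ 2 f) (j : Fin d) (x : E d) : DifferentiableAt ℝ (pd j f) x :=
  ((contDiff_pd2 hf j).differentiable (by simp)) x

lemma pd_add' (hf : ∀ x, DifferentiableAt ℝ f x) (hg : ∀ x, DifferentiableAt ℝ g x) (j : Fin d) :
    pd j (fun x => f x + g x) = fun x => pd j f x + pd j g x := by
  funext x
  unfold pd
  rw [fderiv_fun_add (hf x) (hg x)]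
  rfl

lemma pd_const_mul' (c : ℂ) (hf : ∀ x, DifferentiableAt ℝ f x) (j : Fin d) :
    pd j (fun x => c * f x) = fun x => c * pd j f x := by
  funext x
  unfold pd
  rw [fderiv_const_mul (hf x)]
  rfl

lemma eul_add' (hf : ContDiff ℝ 2 f) (hg : ContDiff ℝ 2 g) (x : E d) :
    eul (fun x => f x + g x) x = eul f x + eul g x := by
  unfold eul
  rw [fderiv_fun_add (diffAt2 hf x) (diffAt2 hg x)]
  rfl

lemma eul_const_mul' (c : ℂ) (hf : ContDiff ℝ 2 f) (x : E d) :
    eul (fun x => c * f x) x = c * eul f x := by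
  unfold eul
  rw [fderiv_const_mul (diffAt2 hf x)]
  rfl

lemma lap_add' (hf : ContDiff ℝ 2 f) (hg : ContDiff ℝ 2 g) (x : E d) :
    lap (fun x => f x + g x) x = lap f x + lap g x := by
  unfold lap
  rw [← Finset.sum_add_distrib]
  refine Finset.sum_congr rfl fun j _ => ?_
  rw [pd_add' (diffAt2 hf) (diffAt2 hg), pd_add' (diffAt_pd2 hf j) (diffAt_pd2 hg j)]

lemma lap_const_mul' (c : ℂ) (hf : ContDiff ℝ 2 f) (x : E d) :
    lap (fun x => c * f x) x = c * lap f x := by
  unfold lap
  rw [Finset.mul_sum]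
  refine Finset.sum_congr rfl fun j _ => ?_
  rw [pd_const_mul' c (diffAt2 hf), pd_const_mul' c (diffAt_pd2 hf j)]

variable {m : ℕ} {w : ℝ} {Q : E d → ℂ}

lemma LL1_add' (hf : ContDiff ℝ 2 f) (hf' : ContDiff ℝ 2 f') (x : E d) :
    LL1 m w Q (fun x => f x + f' x) (fun x => g x + g' x) x =
      LL1 m w Q f g x + LL1 m w Q f' g' x := by
  unfold LL1
  rw [lap_add' hf hf', eul_add' hf hf']
  ring

lemma LL2_add' (hg : ContDiff ℝ 2 g) (hg' : ContDiff ℝ 2 g') (x : E d) :
    LL2 m w Q (fun x => f x + f' x) (fun x => g x + g' x) x =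
      LL2 m w Q f g x + LL2 m w Q f' g' x := by
  unfold LL2
  rw [lap_add' hg hg', eul_add' hg hg']
  ring

lemma LL1_const_mul' (c : ℂ) (hf : ContDiff ℝ 2 f) (x : E d) :
    LL1 m w Q (fun x => c * f x) (fun x => c * g x) x = c * LL1 m w Q f g x := by
  unfold LL1
  rw [lap_const_mul' c hf, eul_const_mul' c hf]
  ring

lemma LL2_const_mul' (c : ℂ) (hg : ContDiff ℝ 2 g) (x : E d) :
    LL2 m w Q (fun x => c * f x) (fun x => c * g x) x = c * LL2 m w Q f g x := by
  unfold LL2
  rw [lap_const_mul' c hg, eul_const_mul' c hg]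
  ring

end lin2

section comb

variable {m : ℕ} {w : ℝ} {Q : E d → ℂ}

/-- First component of a combination of the symmetry modes. -/
noncomputable def cf (m : ℕ) (w : ℝ) (Q : E d → ℂ) (c0 : ℂ) (b : Fin d → ℂ) (c1 : ℂ) (x : E d) : ℂ :=
  c0 * phaseMode Q x + ∑ j, b j * pd j Q x + c1 * timeMode m w Q x

/-- Second component of a combination of the symmetry modes. -/
noncomputable def cg (m : ℕ) (w : ℝ) (Q : E d → ℂ) (c0 : ℂ) (b : Fin d → ℂ) (c1 : ℂ) (x : E d) : ℂ :=
  c0 * conj (phaseMode Q x) + ∑ j, b j * conj (pd j Q x) + c1 * conj (timeMode m w Q x)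

/-- The pair `(f,g)` is a combination of the symmetry modes. -/
def InModes (m : ℕ) (w : ℝ) (Q f g : E d → ℂ) : Prop :=
  ∃ (c0 : ℂ) (b : Fin d → ℂ) (c1 : ℂ), ∀ x, f x = cf m w Q c0 b c1 x ∧ g x = cg m w Q c0 b c1 x

lemma symb_sum {δ : ℝ} (s : Finset (Fin d)) (F : Fin d → E d → ℂ) (hF : ∀ j, Symb δ (F j)) :
    Symb δ (fun x => ∑ j ∈ s, F j x) := by
  classical
  induction s using Finset.induction_on with
  | empty =>
    simp only [Finset.sum_empty]
    refine ⟨contDiff_const, fun k => ⟨0, fun x => ?_⟩⟩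
    have : iteratedFDeriv ℝ k (fun _ : E d => (0 : ℂ)) x = 0 := by
      simp
    rw [this]
    simp
  | insert a s ha ih =>
    simp only [Finset.sum_insert ha]
    exact (hF a).add ih

lemma symb_cf (hQ : IsProfile d m w Q) (c0 : ℂ) (b : Fin d → ℂ) (c1 : ℂ) :
    Symb (2 * aa m) (cf m w Q c0 b c1) :=
  (((symb_phaseMode hQ).const_mul c0).add (symb_sum _ (fun j x => b j * pd j Q x)
    fun j => (((symb_pd hQ j).mono (by linarith)).const_mul (b j)))).add
    ((symb_timeMode hQ).const_mul c1)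

lemma symb_cg (hQ : IsProfile d m w Q) (c0 : ℂ) (b : Fin d → ℂ) (c1 : ℂ) :
    Symb (2 * aa m) (cg m w Q c0 b c1) :=
  (((symb_phaseMode hQ).conj.const_mul c0).add (symb_sum _ (fun j x => b j * conj (pd j Q x))
    fun j => (((symb_pd hQ j).mono (by linarith)).conj.const_mul (b j)))).add
    ((symb_timeMode hQ).conj.const_mul c1)

lemma symb_zero {δ : ℝ} : Symb δ (fun _ : E d => (0 : ℂ)) := by
  refine ⟨contDiff_const, fun k => ⟨0, fun x => ?_⟩⟩
  have : iteratedFDeriv ℝ k (fun _ : E d => (0 : ℂ)) x = 0 := by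
    simp
  rw [this]
  simp

lemma LL1_zero (x : E d) : LL1 m w Q (fun _ => 0) (fun _ => 0) x = 0 := by
  have h := LL1_const_mul' (m := m) (w := w) (Q := Q) (f := fun _ : E d => (0 : ℂ))
    (g := fun _ : E d => (0 : ℂ)) 0 contDiff_const x
  simpa using h

lemma LL2_zero (x : E d) : LL2 m w Q (fun _ => 0) (fun _ => 0) x = 0 := by
  have h := LL2_const_mul' (m := m) (w := w) (Q := Q) (f := fun _ : E d => (0 : ℂ))
    (g := fun _ : E d => (0 : ℂ)) 0 contDiff_const x
  simpa using h

lemma contDiff2 {f : E d → ℂ} (hf : ContDiff ℝ ∞ f) : ContDiff ℝ 2 f :=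
  hf.of_le (WithTop.coe_le_coe.mpr (le_top : (2 : ℕ∞) ≤ ⊤))

lemma LL_sum (s : Finset (Fin d)) (b : Fin d → ℂ) (F G : Fin d → E d → ℂ)
    (hF : ∀ j, ContDiff ℝ ∞ (F j)) (hG : ∀ j, ContDiff ℝ ∞ (G j)) (x : E d) :
    LL1 m w Q (fun x => ∑ j ∈ s, b j * F j x) (fun x => ∑ j ∈ s, b j * G j x) x =
      ∑ j ∈ s, b j * LL1 m w Q (F j) (G j) x ∧
    LL2 m w Q (fun x => ∑ j ∈ s, b j * F j x) (fun x => ∑ j ∈ s, b j * G j x) x =
      ∑ j ∈ s, b j * LL2 m w Q (F j) (G j) x := by
  classical
  induction s using Finset.induction_on with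
  | empty =>
    simp only [Finset.sum_empty]
    exact ⟨LL1_zero x, LL2_zero x⟩
  | insert a s ha ih =>
    simp only [Finset.sum_insert ha]
    have hF1 : ContDiff ℝ 2 (fun x => b a * F a x) := contDiff2 (contDiff_const.mul (hF a))
    have hG1 : ContDiff ℝ 2 (fun x => b a * G a x) := contDiff2 (contDiff_const.mul (hG a))
    have hF2 : ContDiff ℝ 2 (fun x => ∑ j ∈ s, b j * F j x) :=
      contDiff2 (ContDiff.sum fun j _ => contDiff_const.mul (hF j))
    have hG2 : ContDiff ℝ 2 (fun x => ∑ j ∈ s, b j * G j x) :=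
      contDiff2 (ContDiff.sum fun j _ => contDiff_const.mul (hG j))
    rw [LL1_add' hF1 hF2, LL2_add' hG1 hG2, LL1_const_mul' _ (contDiff2 (hF a)),
      LL2_const_mul' _ (contDiff2 (hG a)), ih.1, ih.2]
    exact ⟨rfl, rfl⟩

/-- The linearised operator on combinations of modes. -/
lemma LL1_comb (hm : 1 ≤ m) (hQ : IsProfile d m w Q) (c0 : ℂ) (b : Fin d → ℂ) (c1 : ℂ) (x : E d) :
    LL1 m w Q (cf m w Q c0 b c1) (cg m w Q c0 b c1) x =
      cf m w Q 0 (fun j => (1 / 2) * b j) c1 x := by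
  have hs := IsProfile.smooth hQ
  have hp := contDiff_phaseMode hs
  have ht := contDiff_timeMode (m := m) (w := w) hs
  have h1 : LL1 m w Q (cf m w Q c0 b c1) (cg m w Q c0 b c1) x =
      LL1 m w Q (fun x => c0 * phaseMode Q x) (fun x => c0 * conj (phaseMode Q x)) x +
      LL1 m w Q (fun x => ∑ j, b j * pd j Q x) (fun x => ∑ j, b j * conj (pd j Q x)) x +
      LL1 m w Q (fun x => c1 * timeMode m w Q x) (fun x => c1 * conj (timeMode m w Q x)) x := by
    have e1 : cf m w Q c0 b c1 = fun x => (c0 * phaseMode Q x + ∑ j, b j * pd j Q x) +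
        c1 * timeMode m w Q x := rfl
    have e2 : cg m w Q c0 b c1 = fun x => (c0 * conj (phaseMode Q x) +
        ∑ j, b j * conj (pd j Q x)) + c1 * conj (timeMode m w Q x) := rfl
    rw [e1, e2, LL1_add' (contDiff2 ((contDiff_const.mul hp).add
      (ContDiff.sum fun j _ => contDiff_const.mul (contDiff_pd hs j))))
      (contDiff2 (contDiff_const.mul ht)),
      LL1_add' (contDiff2 (contDiff_const.mul hp))
      (contDiff2 (ContDiff.sum fun j _ => contDiff_const.mul (contDiff_pd hs j)))]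
  rw [h1, LL1_const_mul' _ (contDiff2 hp), LL1_const_mul' _ (contDiff2 ht),
    (LL_sum Finset.univ b (fun j => pd j Q) (fun j x => conj (pd j Q x))
      (fun j => contDiff_pd hs j) (fun j => contDiff_conj (contDiff_pd hs j)) x).1,
    LL1_phaseMode hQ, LL1_timeMode hm hQ]
  unfold cf
  simp only [LL1_pd hQ]
  rw [mul_zero, zero_mul]
  congr 2
  refine Finset.sum_congr rfl fun j _ => ?_
  ring

lemma LL2_comb (hm : 1 ≤ m) (hQ : IsProfile d m w Q) (c0 : ℂ) (b : Fin d → ℂ) (c1 : ℂ) (x : E d) :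
    LL2 m w Q (cf m w Q c0 b c1) (cg m w Q c0 b c1) x =
      cg m w Q 0 (fun j => (1 / 2) * b j) c1 x := by
  have hs := IsProfile.smooth hQ
  have hp := contDiff_conj (contDiff_phaseMode hs)
  have ht := contDiff_conj (contDiff_timeMode (m := m) (w := w) hs)
  have h1 : LL2 m w Q (cf m w Q c0 b c1) (cg m w Q c0 b c1) x =
      LL2 m w Q (fun x => c0 * phaseMode Q x) (fun x => c0 * conj (phaseMode Q x)) x +
      LL2 m w Q (fun x => ∑ j, b j * pd j Q x) (fun x => ∑ j, b j * conj (pd j Q x)) x +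
      LL2 m w Q (fun x => c1 * timeMode m w Q x) (fun x => c1 * conj (timeMode m w Q x)) x := by
    have e1 : cf m w Q c0 b c1 = fun x => (c0 * phaseMode Q x + ∑ j, b j * pd j Q x) +
        c1 * timeMode m w Q x := rfl
    have e2 : cg m w Q c0 b c1 = fun x => (c0 * conj (phaseMode Q x) +
        ∑ j, b j * conj (pd j Q x)) + c1 * conj (timeMode m w Q x) := rfl
    rw [e1, e2, LL2_add' (contDiff2 ((contDiff_const.mul hp).add
      (ContDiff.sum fun j _ => contDiff_const.mul (contDiff_conj (contDiff_pd hs j)))))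
      (contDiff2 (contDiff_const.mul ht)),
      LL2_add' (contDiff2 (contDiff_const.mul hp))
      (contDiff2 (ContDiff.sum fun j _ => contDiff_const.mul (contDiff_conj (contDiff_pd hs j))))]
  rw [h1, LL2_const_mul' _ (contDiff2 hp), LL2_const_mul' _ (contDiff2 ht),
    (LL_sum Finset.univ b (fun j => pd j Q) (fun j x => conj (pd j Q x))
      (fun j => contDiff_pd hs j) (fun j => contDiff_conj (contDiff_pd hs j)) x).2,
    LL2_phaseMode hQ, LL2_timeMode hm hQ]
  unfold cg
  simp only [LL2_pd hQ]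
  rw [mul_zero, zero_mul]
  congr 2
  refine Finset.sum_congr rfl fun j _ => ?_
  ring

lemma cf_sub (c0 c0' : ℂ) (b b' : Fin d → ℂ) (c1 c1' : ℂ) (x : E d) :
    cf m w Q c0 b c1 x - cf m w Q c0' b' c1' x =
      cf m w Q (c0 - c0') (fun j => b j - b' j) (c1 - c1') x := by
  unfold cf
  simp only [sub_mul, Finset.sum_sub_distrib]
  ring

lemma cg_sub (c0 c0' : ℂ) (b b' : Fin d → ℂ) (c1 c1' : ℂ) (x : E d) :
    cg m w Q c0 b c1 x - cg m w Q c0' b' c1' x =
      cg m w Q (c0 - c0') (fun j => b j - b' j) (c1 - c1') x := by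
  unfold cg
  simp only [sub_mul, Finset.sum_sub_distrib]
  ring

lemma cf_smul (c : ℂ) (c0 : ℂ) (b : Fin d → ℂ) (c1 : ℂ) (x : E d) :
    c * cf m w Q c0 b c1 x = cf m w Q (c * c0) (fun j => c * b j) (c * c1) x := by
  unfold cf
  rw [mul_add, mul_add, Finset.mul_sum]
  simp only [mul_assoc]

lemma cg_smul (c : ℂ) (c0 : ℂ) (b : Fin d → ℂ) (c1 : ℂ) (x : E d) :
    c * cg m w Q c0 b c1 x = cg m w Q (c * c0) (fun j => c * b j) (c * c1) x := by
  unfold cg
  rw [mul_add, mul_add, Finset.mul_sum]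
  simp only [mul_assoc]

lemma InModes.add {f g f' g' : E d → ℂ} (h : InModes m w Q f g) (h' : InModes m w Q f' g') :
    InModes m w Q (fun x => f x + f' x) (fun x => g x + g' x) := by
  obtain ⟨c0, b, c1, hc⟩ := h
  obtain ⟨c0', b', c1', hc'⟩ := h'
  refine ⟨c0 + c0', fun j => b j + b' j, c1 + c1', fun x => ?_⟩
  constructor
  · show f x + f' x = _
    rw [(hc x).1, (hc' x).1]
    unfold cf
    simp only [add_mul, Finset.sum_add_distrib]
    ring
  · show g x + g' x = _
    rw [(hc x).2, (hc' x).2]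
    unfold cg
    simp only [add_mul, Finset.sum_add_distrib]
    ring

lemma inModes_of_isMode {lam : ℂ} {f g : E d → ℂ} (h : IsMode m w Q lam f g) :
    InModes m w Q f g := by
  rcases h with ⟨-, c, hc⟩ | ⟨-, c, hc⟩ | ⟨-, c, hc⟩ | hc
  · refine ⟨c, fun _ => 0, 0, fun x => ?_⟩
    unfold cf cg
    simpa using hc x
  · refine ⟨0, c, 0, fun x => ?_⟩
    unfold cf cg
    simpa using hc x
  · refine ⟨0, fun _ => 0, c, fun x => ?_⟩
    unfold cf cg
    simpa using hc x
  · refine ⟨0, fun _ => 0, 0, fun x => ?_⟩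
    unfold cf cg
    simpa using hc x

/-- The spectral part: the component of the modes in the eigenspace of `lam`. -/
lemma isMode_comb (lam c0 : ℂ) (b : Fin d → ℂ) (c1 : ℂ) :
    IsMode m w Q lam
      (cf m w Q (if lam = 0 then c0 else 0) (fun j => if lam = 1 / 2 then b j else 0)
        (if lam = 1 then c1 else 0))
      (cg m w Q (if lam = 0 then c0 else 0) (fun j => if lam = 1 / 2 then b j else 0)
        (if lam = 1 then c1 else 0)) := by
  by_cases h0 : lam = 0
  · left
    refine ⟨h0, c0, fun x => ?_⟩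
    subst h0
    unfold cf cg
    simp
  · by_cases h1 : lam = 1 / 2
    · right; left
      refine ⟨h1, b, fun x => ?_⟩
      have h2 : ¬ lam = 1 := by
        rw [h1]
        norm_num
      unfold cf cg
      simp only [if_neg h0, if_pos h1, if_neg h2, zero_mul, zero_add, add_zero, and_self]
    · by_cases h2 : lam = 1
      · right; right; left
        refine ⟨h2, c1, fun x => ?_⟩
        unfold cf cg
        simp only [if_neg h0, if_neg h1, if_pos h2, zero_mul, zero_add, Finset.sum_const_zero,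
          and_self]
      · right; right; right
        intro x
        unfold cf cg
        simp only [if_neg h0, if_neg h1, if_neg h2, zero_mul, zero_add, Finset.sum_const_zero,
          and_self]

/-- **Quotient form of mode stability.**  If `Re λ ≥ 0`, `f, g` are `C^K` with bounded derivatives
and `(LL - λ)(f,g)` is a combination of symmetry modes, then so is `(f,g)`. -/
theorem quotient_form (hm : 1 ≤ m) {K : ℕ} (hK : 2 ≤ K) (hQ : IsProfile d m w Q)
    (hS : ModeStable (d := d) m K w Q) {lam : ℂ} (hl : 0 ≤ lam.re) {f g : E d → ℂ}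
    (hf : BddC K f) (hg : BddC K g)
    (h : InModes m w Q (fun x => LL1 m w Q f g x - lam * f x)
      (fun x => LL2 m w Q f g x - lam * g x)) :
    InModes m w Q f g := by
  obtain ⟨c0, b, c1, hc⟩ := h
  -- the correction
  set k0 : ℂ := if lam = 0 then 0 else c0 / (0 - lam) with hk0
  set kb : Fin d → ℂ := fun j => if lam = 1 / 2 then 0 else b j / (1 / 2 - lam) with hkb
  set k1 : ℂ := if lam = 1 then 0 else c1 / (1 - lam) with hk1
  set f' : E d → ℂ := fun x => f x + (-1 : ℂ) * cf m w Q k0 kb k1 x with hf'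
  set g' : E d → ℂ := fun x => g x + (-1 : ℂ) * cg m w Q k0 kb k1 x with hg'
  set f0 : E d → ℂ := cf m w Q (if lam = 0 then c0 else 0) (fun j => if lam = 1 / 2 then b j else 0)
        (if lam = 1 then c1 else 0) with hf0
  set g0 : E d → ℂ := cg m w Q (if lam = 0 then c0 else 0) (fun j => if lam = 1 / 2 then b j else 0)
        (if lam = 1 then c1 else 0) with hg0
  have hcf := symb_cf hQ k0 kb k1
  have hcg := symb_cg hQ k0 kb k1
  have hf2 : ContDiff ℝ 2 f := hf.1.of_le (by exact_mod_cast hK)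
  have hg2 : ContDiff ℝ 2 g := hg.1.of_le (by exact_mod_cast hK)
  have hbdd : ∀ {F G : E d → ℂ}, BddC K F → Symb (2 * aa m) G →
      BddC K (fun x => F x + (-1 : ℂ) * G x) := by
    intro F G hF hG
    have h1 := (hG.const_mul (-1)).bddC (by have := aa_nonneg m; linarith) K
    refine ⟨hF.1.add h1.1, fun k hk => ?_⟩
    obtain ⟨C, hC⟩ := hF.2 k hk
    obtain ⟨D, hD⟩ := h1.2 k hk
    refine ⟨C + D, fun x => ?_⟩
    have h2 : iteratedFDeriv ℝ k (fun x => F x + (-1 : ℂ) * G x) x =
        iteratedFDeriv ℝ k F x + iteratedFDeriv ℝ k (fun x => (-1 : ℂ) * G x) x :=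
      iteratedFDeriv_add_apply (hF.1.of_le (by exact_mod_cast hk)).contDiffAt
        (h1.1.of_le (by exact_mod_cast hk)).contDiffAt
    rw [h2]
    exact (norm_add_le _ _).trans (add_le_add (hC x) (hD x))
  have hf'b : BddC K f' := hbdd hf hcf
  have hg'b : BddC K g' := hbdd hg hcg
  -- coefficient identities
  have e0 : c0 - (0 - lam * k0) = if lam = 0 then c0 else 0 := by
    rw [hk0]
    split_ifs with h0
    · rw [h0]; ring
    · have : (0 : ℂ) - lam ≠ 0 := by
        rw [zero_sub]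
        exact neg_ne_zero.mpr h0
      field_simp
      ring
  have eb : ∀ j, b j - ((1 / 2) * kb j - lam * kb j) = if lam = 1 / 2 then b j else 0 := by
    intro j
    rw [hkb]
    simp only
    split_ifs with h0
    · rw [h0]; ring
    · have h8 : (1 / 2 : ℂ) - lam ≠ 0 := sub_ne_zero.mpr (Ne.symm h0)
      have h9 : ((1 / 2 : ℂ) - lam) * (b j / (1 / 2 - lam)) = b j := mul_div_cancel₀ _ h8
      linear_combination -h9
  have e1 : c1 - (k1 - lam * k1) = if lam = 1 then c1 else 0 := by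
    rw [hk1]
    split_ifs with h0
    · rw [h0]; ring
    · have : (1 : ℂ) - lam ≠ 0 := sub_ne_zero.mpr (Ne.symm h0)
      field_simp
      ring
  have hL1 : ∀ x, LL1 m w Q f' g' x = lam * f' x + f0 x := by
    intro x
    have h1 : LL1 m w Q f' g' x = LL1 m w Q f g x + (-1) * LL1 m w Q (cf m w Q k0 kb k1)
        (cg m w Q k0 kb k1) x := by
      rw [hf', hg', LL1_add' hf2 (contDiff2 (contDiff_const.mul hcf.1)),
        LL1_const_mul' _ (contDiff2 hcf.1)]
    have h2 := (hc x).1
    rw [h1, LL1_comb hm hQ]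
    have h3 : LL1 m w Q f g x = lam * f x + cf m w Q c0 b c1 x := by linear_combination h2
    have h4 : f0 x = cf m w Q c0 b c1 x - (cf m w Q 0 (fun j => (1 / 2) * kb j) k1 x -
        cf m w Q (lam * k0) (fun j => lam * kb j) (lam * k1) x) := by
      rw [cf_sub, cf_sub, hf0]
      congr 1
      · exact e0.symm
      · funext j
        exact (eb j).symm
      · exact e1.symm
    rw [h3, h4, ← cf_smul, hf']
    ring
  have hL2 : ∀ x, LL2 m w Q f' g' x = lam * g' x + g0 x := by
    intro x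
    have h1 : LL2 m w Q f' g' x = LL2 m w Q f g x + (-1) * LL2 m w Q (cf m w Q k0 kb k1)
        (cg m w Q k0 kb k1) x := by
      rw [hf', hg', LL2_add' hg2 (contDiff2 (contDiff_const.mul hcg.1)),
        LL2_const_mul' _ (contDiff2 hcg.1)]
    have h2 := (hc x).2
    rw [h1, LL2_comb hm hQ]
    have h3 : LL2 m w Q f g x = lam * g x + cg m w Q c0 b c1 x := by linear_combination h2
    have h4 : g0 x = cg m w Q c0 b c1 x - (cg m w Q 0 (fun j => (1 / 2) * kb j) k1 x -
        cg m w Q (lam * k0) (fun j => lam * kb j) (lam * k1) x) := by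
      rw [cg_sub, cg_sub, hg0]
      congr 1
      · exact e0.symm
      · funext j
        exact (eb j).symm
      · exact e1.symm
    rw [h3, h4, ← cg_smul, hg']
    ring
  have hmode : IsMode m w Q lam f0 g0 := isMode_comb lam c0 b c1
  have hz := hS.jordan lam hl f' g' f0 g0 hf'b hg'b hmode hL1 hL2
  have heig := hS.eig lam hl f' g' hf'b hg'b
    (fun x => by rw [hL1 x, (hz x).1, add_zero]) (fun x => by rw [hL2 x, (hz x).2, add_zero])
  have h5 := (inModes_of_isMode heig).add
    (⟨k0, kb, k1, fun x => ⟨rfl, rfl⟩⟩ : InModes m w Q (cf m w Q k0 kb k1) (cg m w Q k0 kb k1))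
  obtain ⟨a0, ab, a1, ha⟩ := h5
  refine ⟨a0, ab, a1, fun x => ?_⟩
  have hx := ha x
  constructor
  · rw [← hx.1, hf']
    ring
  · rw [← hx.2, hg']
    ring

end comb

end Vale.Agent.P139.H730
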