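import Vale.Agent.P139.H694.QCSemi
import Vale.Agent.P139.H42.SG4

/-!
# The abstract part of the linear package

A quasi-compact semigroup with finitely many exact modes, commuting with a conjugation `J` which
fixes the modes: projection, decay of the remainder, and real coefficients on the real subspace.
-/

open Filter Topology MeasureTheory
open scoped ComplexConjugate

namespace Vale.Agent.P139.H730

open Vale.P139.QC Vale.Agent.P139.H42

variable {X : Type*} [NormedAddCommGroup X] [NormedSpace ℂ X]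

/-- Coefficients in the span of finitely many `J`-fixed vectors can be taken real and bounded. -/
theorem exists_real_coeff {ι : Type*} [Fintype ι] (v : ι → X) (J : X →+ X)
    (hJ : ∀ (c : ℂ) x, J (c • x) = conj c • J x) (hJv : ∀ i, J (v i) = v i) :
    ∃ C : ℝ, 0 ≤ C ∧ ∀ x ∈ Submodule.span ℂ (Set.range v), J x = x →
      ∃ c : ι → ℝ, x = ∑ i, (c i : ℂ) • v i ∧ ∑ i, |c i| ≤ C * ‖x‖ := by
  set L : (ι → ℂ) →ₗ[ℂ] X := Fintype.linearCombination ℂ v with hL
  have hrange : LinearMap.range L = Submodule.span ℂ (Set.range v) := by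
    rw [hL, Fintype.range_linearCombination]
  have : FiniteDimensional ℂ (LinearMap.range L) := inferInstance
  obtain ⟨R, hR⟩ := L.rangeRestrict.exists_rightInverse_of_surjective
    (LinearMap.range_rangeRestrict L)
  set Rc : LinearMap.range L →L[ℂ] (ι → ℂ) := LinearMap.toContinuousLinearMap R with hRc
  refine ⟨Fintype.card ι * ‖Rc‖, by positivity, fun x hx hJx => ?_⟩
  rw [← hrange] at hx
  set x' : LinearMap.range L := ⟨x, hx⟩ with hx'
  have h1 : L (R x') = x := by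
    have := LinearMap.congr_fun hR x'
    simpa [LinearMap.rangeRestrict] using congrArg Subtype.val this
  set c : ι → ℂ := R x' with hc
  have h2 : x = ∑ i, c i • v i := by
    rw [← h1, hL, Fintype.linearCombination_apply]
  have h3 : x = ∑ i, conj (c i) • v i := by
    conv_lhs => rw [← hJx, h2]
    rw [map_sum]
    exact Finset.sum_congr rfl fun i _ => by rw [hJ, hJv]
  refine ⟨fun i => (c i).re, ?_, ?_⟩
  · have h4 : (2 : ℂ) • x = (2 : ℂ) • ∑ i, ((c i).re : ℂ) • v i := by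
      rw [two_smul]
      conv_lhs => arg 1; rw [h2]
      conv_lhs => arg 2; rw [h3]
      rw [← Finset.sum_add_distrib, Finset.smul_sum]
      refine Finset.sum_congr rfl fun i _ => ?_
      rw [← add_smul, smul_smul, Complex.add_conj]
      push_cast
      rfl
    exact smul_right_injective X (two_ne_zero' ℂ) h4
  · have h5 : ‖c‖ ≤ ‖Rc‖ * ‖x‖ := Rc.le_opNorm x'
    calc ∑ i, |(c i).re| ≤ ∑ _i : ι, ‖c‖ :=
          Finset.sum_le_sum fun i _ => (Complex.abs_re_le_norm _).trans (norm_le_pi_norm c i)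
      _ = Fintype.card ι * ‖c‖ := by simp
      _ ≤ Fintype.card ι * (‖Rc‖ * ‖x‖) := by gcongr
      _ = _ := by ring

theorem isC0_of_isSG {S : ℝ → X →L[ℂ] X} (h : IsSG S) : IsC0 S := ⟨h.zero, h.add, h.cont⟩

variable [CompleteSpace X]

/-- **Abstract package.** -/
theorem abstract_package {S : ℝ → X →L[ℂ] X} (hS : IsSG S) (hqc : QuasiCompact (S 1))
    {ι : Type*} [Fintype ι] (v : ι → X) (lam : ι → ℂ) (hre : ∀ i, 0 ≤ (lam i).re)
    (hv : ∀ t, 0 ≤ t → ∀ i, S t (v i) = Complex.exp (lam i * t) • v i)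
    (hH : ∀ (z : ℂ), 0 ≤ z.re → ∀ x,
      (∀ t : ℝ, 0 ≤ t → S t x - Complex.exp (z * t) • x ∈ Submodule.span ℂ (Set.range v)) →
      x ∈ Submodule.span ℂ (Set.range v))
    (J : X →+ X) (hJc : Continuous J) (hJ : ∀ (c : ℂ) x, J (c • x) = conj c • J x)
    (hJv : ∀ i, J (v i) = v i) (hJS : ∀ t, 0 ≤ t → ∀ x, J (S t x) = S t (J x)) :
    ∃ (P : X →L[ℂ] X) (C δ : ℝ), 0 < C ∧ 0 < δ ∧
      (∀ x, P x ∈ Submodule.span ℂ (Set.range v)) ∧ (∀ i, P (v i) = v i) ∧
      (∀ x, P (P x) = P x) ∧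
      (∀ t, 0 ≤ t → ∀ x, P (S t x) = S t (P x)) ∧
      (∀ x, P (J x) = J (P x)) ∧
      (∀ t, 0 ≤ t → ∀ x, ‖S t (x - P x)‖ ≤ C * Real.exp (-δ * t) * ‖x‖) ∧
      (∀ x, ‖P x‖ ≤ C * ‖x‖) ∧
      (∀ x, J x = x → ∃ c : ι → ℝ, P x = ∑ i, (c i : ℂ) • v i ∧ ∑ i, |c i| ≤ C * ‖x‖ ∧
        ∀ t, 0 ≤ t → S t (P x) = ∑ i, (Complex.exp (lam i * t) * c i) • v i) := by
  obtain ⟨P, hP1, hP2, hP3, ⟨C, δ, hC, hδ, hdec⟩, hP5⟩ :=
    (isC0_of_isSG hS).exists_projection_of_modes v lam hv hre hqc hH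
  obtain ⟨C', hC', hco⟩ := exists_real_coeff v J hJ hJv
  have hJspan : ∀ x ∈ Submodule.span ℂ (Set.range v),
      J x ∈ Submodule.span ℂ (Set.range v) := by
    intro x hx
    refine Submodule.span_induction
      (p := fun x _ => J x ∈ Submodule.span ℂ (Set.range v)) ?_ ?_ ?_ ?_ hx
    · rintro _ ⟨i, rfl⟩
      rw [hJv]; exact Submodule.subset_span ⟨i, rfl⟩
    · rw [map_zero]; exact Submodule.zero_mem _
    · intro a b _ _ ha hb
      rw [map_add]; exact Submodule.add_mem _ ha hb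
    · intro c a _ ha
      rw [hJ]; exact Submodule.smul_mem _ _ ha
  have hPJ : ∀ x, P (J x) = J (P x) :=
    hP5 J hJc hJspan (fun x => hJS 1 zero_le_one x)
  have hPn : ∀ x, ‖P x‖ ≤ ‖P‖ * ‖x‖ := fun x => P.le_opNorm x
  set C₁ : ℝ := C + ‖P‖ + C' * ‖P‖ with hC₁
  have hP0 : 0 ≤ ‖P‖ := norm_nonneg _
  have hCP : 0 ≤ C' * ‖P‖ := by positivity
  refine ⟨P, C₁, δ, by positivity, hδ, hP1, fun i => hP2 _ (Submodule.subset_span ⟨i, rfl⟩),
    fun x => hP2 _ (hP1 x), hP3, hPJ, ?_, ?_, ?_⟩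
  · intro t ht x
    refine (hdec t ht x).trans ?_
    gcongr
    rw [hC₁]; linarith
  · intro x
    refine (hPn x).trans ?_
    gcongr
    rw [hC₁]; linarith
  · intro x hx
    obtain ⟨c, hc, hcb⟩ := hco (P x) (hP1 x) (by rw [← hPJ, hx])
    refine ⟨c, hc, ?_, ?_⟩
    · refine hcb.trans ?_
      calc C' * ‖P x‖ ≤ C' * (‖P‖ * ‖x‖) := by gcongr; exact hPn x
        _ = (C' * ‖P‖) * ‖x‖ := by ring
        _ ≤ C₁ * ‖x‖ := by gcongr; rw [hC₁]; linarith
    · intro t ht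
      rw [hc, map_sum]
      refine Finset.sum_congr rfl fun i _ => ?_
      rw [map_smul, hv t ht, smul_smul, mul_comm]

end Vale.Agent.P139.H730
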