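import Vale.Agent.P139.H730.ModeVec
import Vale.Agent.P139.H730.PackAbs
import Vale.Agent.P139.H25.Bridge

/-!
# The final linear package (ST)

`STData m w Q V₁ V₂` bundles the perturbed semigroup on the pair space `X1 d s × X1 d s`,
the projection onto the symmetry modes, the decay of the remainder and the explicit form of the
flow on the modes with real parameters.
-/

open MeasureTheory Real FourierTransform Filter Topology
open scoped ComplexConjugate ContDiff

namespace Vale.Agent.P139.H730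

open Vale.Agent.P139.BU Vale.Agent.P139.H201 Vale.Agent.P139.H42 Vale.Agent.P139.WA

variable {d m s : ℕ} {w : ℝ} {Q : E d → ℂ}

/-- The free flow on pairs. -/
noncomputable abbrev FP (d m s : ℕ) (w : ℝ) : ℝ → (X1 d s × X1 d s) →L[ℂ] (X1 d s × X1 d s) :=
  flowP d s zero_le_one (-(aa m) + Complex.I * w) (4 * Real.pi ^ 2)

/-- **The linear package.** -/
structure STData (m : ℕ) (w : ℝ) (Q : E d → ℂ) {s : ℕ} (V₁ V₂ : X1 d s) where
  /-- the perturbed semigroup -/
  S : ℝ → (X1 d s × X1 d s) →L[ℂ] (X1 d s × X1 d s)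
  /-- the projection onto the symmetry modes -/
  P : (X1 d s × X1 d s) →L[ℂ] (X1 d s × X1 d s)
  /-- the constant -/
  C : ℝ
  /-- the rate -/
  δ : ℝ
  C_pos : 0 < C
  δ_pos : 0 < δ
  pert : IsPert (FP d m s w) (BX zero_le_one m V₁ V₂) S
  P_P : ∀ x, P (P x) = P x
  P_S : ∀ t, 0 ≤ t → ∀ x, P (S t x) = S t (P x)
  P_JX : ∀ x, P (JX zero_le_one x) = JX zero_le_one (P x)
  S_JX : ∀ t, 0 ≤ t → ∀ x, JX zero_le_one (S t x) = S t (JX zero_le_one x)
  dec : ∀ t, 0 ≤ t → ∀ x, ‖S t (x - P x)‖ ≤ C * Real.exp (-δ * t) * ‖x‖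
  P_le : ∀ x, ‖P x‖ ≤ C * ‖x‖
  modes : ∀ x, JX zero_le_one x = x → ∃ (α : ℝ) (β : Fin d → ℝ) (γ : ℝ),
    |α| + ∑ i, |β i| + |γ| ≤ C * ‖P x‖ ∧ ∀ t, 0 ≤ t → ∀ y,
      ev (S t (P x)).1 y =
        H605.modeOf m w Q α (fun i => Real.exp (t / 2) * β i) (Real.exp t * γ) y ∧
      ev (S t (P x)).2 y =
        conj (H605.modeOf m w Q α (fun i => Real.exp (t / 2) * β i) (Real.exp t * γ) y)

/-! ### Potentials -/

lemma conj_W1' (m : ℕ) (z : ℂ) : conj (W1 m z) = W1 m z := conj_W1 m z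

lemma star_of_real {s : ℕ} {f : X1 d s} (h : ∀ y, conj (ev f y) = ev f y) :
    starX zero_le_one f = f := by
  apply ev_injective zero_le_one
  intro y
  rw [ev_starX, h]

/-- The total mass of the density does not depend on the level. -/
lemma m0_eq_of_ev {s s' : ℕ} (f : X1 d s) (g : X1 d s') (h : ∀ y, ev f y = ev g y) :
    m0 f = m0 g := by
  have hf := XK.integrable zero_le_one f
  have hg := XK.integrable zero_le_one g
  have h0 : ∀ y, 𝓕⁻ (fun ξ => f ξ - g ξ) y = 0 := by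
    intro y
    have h1 : 𝓕⁻ (fun ξ => f ξ - g ξ) y = 𝓕⁻ (fun ξ => f ξ) y - 𝓕⁻ (fun ξ => g ξ) y := by
      rw [Real.fourierInv_eq, Real.fourierInv_eq, Real.fourierInv_eq,
        ← integral_sub (integrable_char_smul hf y) (integrable_char_smul hg y)]
      refine integral_congr_ae (Eventually.of_forall fun ξ => ?_)
      simp only [smul_sub]
    rw [h1]
    have := h y
    unfold ev at this
    rw [sub_eq_zero]
    exact this
  have h2 := ae_zero_of_fourierInv (hf.sub hg) h0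
  unfold m0
  refine integral_congr_ae ?_
  filter_upwards [h2] with ξ hξ
  have : f ξ - g ξ = 0 := hξ
  rw [sub_eq_zero.1 this]

/-- The potentials exist at every level, with total mass independent of the level. -/
theorem exists_potentials (hm : 1 ≤ m) (hQ : IsProfile d m w Q) :
    ∃ M₀ : ℝ, ∀ s : ℕ, ∃ V₁ V₂ : X1 d s, (∀ y, ev V₁ y = W1 m (Q y)) ∧
      (∀ y, ev V₂ y = W2 m (Q y)) ∧ 16 * ((m + 1) * m0 V₁ + m * m0 V₂) = M₀ := by
  have h1 : ∀ (s : ℕ) (y : E d), ev (xel 1 s (fun y => W1 m (Q y)) : X1 d s) y = W1 m (Q y) :=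
    fun s y => ev_xel zero_le_one s two_pos (symb_W1 hm hQ) y
  have h2 : ∀ (s : ℕ) (y : E d), ev (xel 1 s (fun y => W2 m (Q y)) : X1 d s) y = W2 m (Q y) :=
    fun s y => ev_xel zero_le_one s two_pos (symb_W2 hm hQ) y
  refine ⟨16 * ((m + 1) * m0 (xel 1 0 (fun y => W1 m (Q y)) : X1 d 0) +
    m * m0 (xel 1 0 (fun y => W2 m (Q y)) : X1 d 0)), fun s => ⟨_, _, h1 s, h2 s, ?_⟩⟩
  rw [m0_eq_of_ev _ _ (fun y => (h1 s y).trans (h1 0 y).symm),
    m0_eq_of_ev _ _ (fun y => (h2 s y).trans (h2 0 y).symm)]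

/-! ### The package -/

lemma ModeStable.mono {K K' : ℕ} (hK : K ≤ K') (h : ModeStable (d := d) m K w Q) :
    ModeStable (d := d) m K' w Q where
  eig lam hl f g hf hg h1 h2 := h.eig lam hl f g (hf.mono hK) (hg.mono hK) h1 h2
  jordan lam hl f g f0 g0 hf hg hM h1 h2 :=
    h.jordan lam hl f g f0 g0 (hf.mono hK) (hg.mono hK) hM h1 h2

lemma cf_eq_modeOf (α : ℝ) (β : Fin d → ℝ) (γ : ℝ) (y : E d) :
    cf m w Q (α : ℂ) (fun j => (β j : ℂ)) (γ : ℂ) y = H605.modeOf m w Q α β γ y := rfl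

lemma cg_eq_modeOf (α : ℝ) (β : Fin d → ℝ) (γ : ℝ) (y : E d) :
    cg m w Q (α : ℂ) (fun j => (β j : ℂ)) (γ : ℂ) y = conj (H605.modeOf m w Q α β γ y) := by
  unfold cg H605.modeOf
  simp only [map_add, map_mul, map_sum, Complex.conj_ofReal]

/-- **(ST)**: the linear package for arbitrary representations of the potentials. -/
theorem st_package (hm : 1 ≤ m) {K : ℕ} (hs : 2 ≤ s) (hKs : K ≤ s)
    (hQ : IsProfile d m w Q) (hMS : ModeStable (d := d) m K w Q) (V₁ V₂ : X1 d s)
    (hV₁ : ∀ y, ev V₁ y = W1 m (Q y)) (hV₂ : ∀ y, ev V₂ y = W2 m (Q y))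
    (hsm : 16 * ((m + 1) * m0 V₁ + m * m0 V₂) ≤ s) : Nonempty (STData m w Q V₁ V₂) := by
  have hMS' : ModeStable (d := d) m s w Q := ModeStable.mono hKs hMS
  have hstar : starX zero_le_one V₁ = V₁ := star_of_real fun y => by
    rw [hV₁, conj_W1]
  obtain ⟨S, hS, hqc, hSJ⟩ := st_semi hm w (by omega) V₁ V₂ hstar hsm
  set v : MI d → X1 d s × X1 d s := mvec zero_le_one s m w Q with hv
  have hEC : ∀ x : X1 d s × X1 d s, x ∈ H25.EC zero_le_one m w Q ↔
      x ∈ Submodule.span ℂ (Set.range v) := fun x =>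
    (H25.mem_EC zero_le_one).trans (mem_span_modes zero_le_one hm hQ x).symm
  have hmode : ∀ t, 0 ≤ t → ∀ i, S t (v i) = Complex.exp (((mlam i : ℝ) : ℂ) * t) • v i := by
    intro t ht i
    refine H25.mode_eig one_pos hs hV₁ hV₂ hS (fun y => ?_) (fun y => ?_) t ht
    · have e1 : ev (v i).1 = mfun m w Q i := funext fun y => ev_mvec_fst zero_le_one hm hQ i y
      have e2 : ev (v i).2 = fun y => conj (mfun m w Q i y) :=
        funext fun y => ev_mvec_snd zero_le_one hm hQ i y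
      rw [e1, e2]
      exact LL1_mfun hm hQ i y
    · have e1 : ev (v i).1 = mfun m w Q i := funext fun y => ev_mvec_fst zero_le_one hm hQ i y
      have e2 : ev (v i).2 = fun y => conj (mfun m w Q i y) :=
        funext fun y => ev_mvec_snd zero_le_one hm hQ i y
      rw [e1, e2]
      exact LL2_mfun hm hQ i y
  let J : (X1 d s × X1 d s) →+ (X1 d s × X1 d s) :=
    { toFun := fun x => JX zero_le_one x
      map_zero' := map_zero _
      map_add' := fun x y => map_add _ x y }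
  obtain ⟨P, C, δ, hC, hδ, hP1, hP2, hPP, hPS, hPJ, hdec, hPle, hreal⟩ :=
    abstract_package hS.sg hqc v (fun i => ((mlam i : ℝ) : ℂ))
      (fun i => by simpa using mlam_nonneg i) hmode
      (fun z hz x hx => (hEC x).1 (H25.hyp_H one_pos hm hs le_rfl hQ hMS' hV₁ hV₂ hS hz
        (fun t ht => (hEC _).2 (hx t ht))))
      J (JX zero_le_one).continuous
      (fun c x => by
        refine Prod.ext ?_ ?_
        · exact starX_smul zero_le_one c x.2
        · exact starX_smul zero_le_one c x.1)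
      (fun i => JX_mvec zero_le_one i) (fun t ht x => hSJ t ht x)
  refine ⟨⟨S, P, C, δ, hC, hδ, hS, hPP, hPS, hPJ, hSJ, hdec, hPle, fun x hx => ?_⟩⟩
  obtain ⟨c, -, hcb, hct⟩ := hreal (P x) (by
    change JX zero_le_one (P x) = P x
    have := hPJ x
    change P (JX zero_le_one x) = JX zero_le_one (P x) at this
    rw [← this, hx])
  refine ⟨c (Sum.inr false), fun j => c (Sum.inl j), c (Sum.inr true), ?_, fun t ht y => ?_⟩
  · have := sum_modes (fun i => |c i|)
    linarith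
  · have h1 := hct t ht
    rw [hPP] at h1
    have e : ∀ i, Complex.exp (((mlam i : ℝ) : ℂ) * t) * (c i : ℂ)
        = ((Real.exp (mlam i * t) * c i : ℝ) : ℂ) := by
      intro i; push_cast; rfl
    simp only [e] at h1
    have e0 : Real.exp (mlam (Sum.inr false : MI d) * t) * c (Sum.inr false)
        = c (Sum.inr false) := by simp [mlam]
    have e1 : ∀ j, Real.exp (mlam (Sum.inl j : MI d) * t) * c (Sum.inl j)
        = Real.exp (t / 2) * c (Sum.inl j) := by
      intro j; simp only [mlam]; congr 2; ring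
    have e2 : Real.exp (mlam (Sum.inr true : MI d) * t) * c (Sum.inr true)
        = Real.exp t * c (Sum.inr true) := by simp [mlam]
    constructor
    · rw [h1, ev_comb_fst zero_le_one hm hQ (fun i => ((Real.exp (mlam i * t) * c i : ℝ) : ℂ)) y,
        cf_eq_modeOf]
      simp only [e0, e1, e2]
    · rw [h1, ev_comb_snd zero_le_one hm hQ (fun i => ((Real.exp (mlam i * t) * c i : ℝ) : ℂ)) y,
        cg_eq_modeOf]
      simp only [e0, e1, e2]

/-- Existence of the package at every high level. -/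
theorem exists_stData (hm : 1 ≤ m) {K : ℕ} (hQ : IsProfile d m w Q)
    (hMS : ModeStable (d := d) m K w Q) : ∃ s₀ : ℕ, 2 ≤ s₀ ∧ K ≤ s₀ ∧ ∀ s, s₀ ≤ s →
      ∃ V₁ V₂ : X1 d s, (∀ y, ev V₁ y = W1 m (Q y)) ∧ (∀ y, ev V₂ y = W2 m (Q y)) ∧
        Nonempty (STData m w Q V₁ V₂) := by
  obtain ⟨M₀, hM⟩ := exists_potentials hm hQ
  refine ⟨max (max 2 K) ⌈M₀⌉₊, le_max_of_le_left (le_max_left _ _),
    le_max_of_le_left (le_max_right _ _), fun s hs => ?_⟩
  obtain ⟨V₁, V₂, h1, h2, h3⟩ := hM s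
  refine ⟨V₁, V₂, h1, h2, st_package hm (K := K) ?_ ?_ hQ hMS V₁ V₂ h1 h2 ?_⟩
  · exact (le_max_left 2 K).trans ((le_max_left _ _).trans hs)
  · exact (le_max_right 2 K).trans ((le_max_left _ _).trans hs)
  · rw [h3]
    exact (Nat.le_ceil M₀).trans (by exact_mod_cast (le_max_right _ _).trans hs)

end Vale.Agent.P139.H730
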