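import Vale.Agent.P139.BU.Core

/-!
# Symmetry modes of the linearisation at a profile, and the quotient form of mode stability
-/

open scoped ComplexConjugate ContDiff
open Complex

namespace Vale.Agent.P139.H730

open Vale.Agent.P139.BU

variable {d : ℕ}

/-! ### Calculus of `pd`, `lap`, `eul` -/

section calculus

variable {f g : E d → ℂ}

lemma contDiff_fderiv' {f : E d → ℂ} (hf : ContDiff ℝ ∞ f) : ContDiff ℝ ∞ (fderiv ℝ f) :=
  hf.fderiv_right (by simp)

lemma contDiff_pd (hf : ContDiff ℝ ∞ f) (j : Fin d) : ContDiff ℝ ∞ (pd j f) :=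
  (contDiff_fderiv' hf).clm_apply contDiff_const

lemma contDiff_eul (hf : ContDiff ℝ ∞ f) : ContDiff ℝ ∞ (eul f) :=
  (contDiff_fderiv' hf).clm_apply contDiff_id

lemma contDiff_lap (hf : ContDiff ℝ ∞ f) : ContDiff ℝ ∞ (lap f) := by
  unfold lap
  exact ContDiff.sum fun j _ => contDiff_pd (contDiff_pd hf j) j

lemma contDiff_conj (hf : ContDiff ℝ ∞ f) : ContDiff ℝ ∞ (fun x => conj (f x)) :=
  conjCLE.contDiff.comp hf

lemma diffAt (hf : ContDiff ℝ ∞ f) (x : E d) : DifferentiableAt ℝ f x :=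
  (hf.differentiable (by simp)) x

lemma diffAt_fderiv (hf : ContDiff ℝ ∞ f) (x : E d) : DifferentiableAt ℝ (fderiv ℝ f) x :=
  ((contDiff_fderiv' hf).differentiable (by simp)) x

lemma hasFDerivAt_conj {x : E d} (hf : DifferentiableAt ℝ f x) :
    HasFDerivAt (fun x => conj (f x)) ((conjCLE : ℂ →L[ℝ] ℂ).comp (fderiv ℝ f x)) x :=
  (conjCLE : ℂ →L[ℝ] ℂ).hasFDerivAt.comp x hf.hasFDerivAt

lemma fderiv_conj' {x : E d} (hf : DifferentiableAt ℝ f x) (v : E d) :
    fderiv ℝ (fun x => conj (f x)) x v = conj (fderiv ℝ f x v) := by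
  rw [(hasFDerivAt_conj hf).fderiv]
  rfl

lemma pd_conj {x : E d} (hf : DifferentiableAt ℝ f x) (j : Fin d) :
    pd j (fun x => conj (f x)) x = conj (pd j f x) := fderiv_conj' hf _

lemma eul_conj {x : E d} (hf : DifferentiableAt ℝ f x) :
    eul (fun x => conj (f x)) x = conj (eul f x) := fderiv_conj' hf _

lemma pd_conj_fun (hf : ContDiff ℝ ∞ f) (j : Fin d) :
    pd j (fun x => conj (f x)) = fun x => conj (pd j f x) := by
  funext x
  exact pd_conj (diffAt hf x) j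

lemma lap_conj (hf : ContDiff ℝ ∞ f) (x : E d) :
    lap (fun x => conj (f x)) x = conj (lap f x) := by
  unfold lap
  rw [map_sum]
  refine Finset.sum_congr rfl fun j _ => ?_
  rw [pd_conj_fun hf, pd_conj (diffAt (contDiff_pd hf j) x)]

/-- Linearity, in the form used below: finite linear combinations. -/
lemma pd_add (hf : ContDiff ℝ ∞ f) (hg : ContDiff ℝ ∞ g) (j : Fin d) :
    pd j (fun x => f x + g x) = fun x => pd j f x + pd j g x := by
  funext x
  unfold pd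
  rw [fderiv_fun_add (diffAt hf x) (diffAt hg x)]
  rfl

lemma pd_const_mul (c : ℂ) (hf : ContDiff ℝ ∞ f) (j : Fin d) :
    pd j (fun x => c * f x) = fun x => c * pd j f x := by
  funext x
  unfold pd
  rw [fderiv_const_mul (diffAt hf x)]
  rfl

lemma eul_add (hf : ContDiff ℝ ∞ f) (hg : ContDiff ℝ ∞ g) (x : E d) :
    eul (fun x => f x + g x) x = eul f x + eul g x := by
  unfold eul
  rw [fderiv_fun_add (diffAt hf x) (diffAt hg x)]
  rfl

lemma eul_const_mul (c : ℂ) (hf : ContDiff ℝ ∞ f) (x : E d) :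
    eul (fun x => c * f x) x = c * eul f x := by
  unfold eul
  rw [fderiv_const_mul (diffAt hf x)]
  rfl

lemma lap_add (hf : ContDiff ℝ ∞ f) (hg : ContDiff ℝ ∞ g) (x : E d) :
    lap (fun x => f x + g x) x = lap f x + lap g x := by
  unfold lap
  rw [← Finset.sum_add_distrib]
  refine Finset.sum_congr rfl fun j _ => ?_
  rw [pd_add hf hg, pd_add (contDiff_pd hf j) (contDiff_pd hg j)]

lemma lap_const_mul (c : ℂ) (hf : ContDiff ℝ ∞ f) (x : E d) :
    lap (fun x => c * f x) x = c * lap f x := by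
  unfold lap
  rw [Finset.mul_sum]
  refine Finset.sum_congr rfl fun j _ => ?_
  rw [pd_const_mul c hf, pd_const_mul c (contDiff_pd hf j)]

/-- Second derivative in directions `v` then `u`. -/
lemma fderiv_fderiv_apply (hf : ContDiff ℝ ∞ f) (v : E d) (x u : E d) :
    fderiv ℝ (fun y => fderiv ℝ f y v) x u = fderiv ℝ (fderiv ℝ f) x u v := by
  have h1 : HasFDerivAt (fun y => fderiv ℝ f y v)
      ((ContinuousLinearMap.apply ℝ ℂ v).comp (fderiv ℝ (fderiv ℝ f) x)) x :=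
    (ContinuousLinearMap.apply ℝ ℂ v).hasFDerivAt.comp x (diffAt_fderiv hf x).hasFDerivAt
  rw [h1.fderiv]
  rfl

lemma second_symm (hf : ContDiff ℝ ∞ f) (x u v : E d) :
    fderiv ℝ (fderiv ℝ f) x u v = fderiv ℝ (fderiv ℝ f) x v u := by
  have h2 : IsSymmSndFDerivAt ℝ f x :=
    (hf.contDiffAt (x := x)).isSymmSndFDerivAt (by
      simp only [minSmoothness_of_isRCLikeNormedField]
      exact WithTop.coe_le_coe.mpr (le_top : (2 : ℕ∞) ≤ ⊤))
  exact h2 u v

lemma pd_comm (hf : ContDiff ℝ ∞ f) (i j : Fin d) : pd i (pd j f) = pd j (pd i f) := by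
  funext x
  have h1 : pd i (pd j f) x = fderiv ℝ (fderiv ℝ f) x (EuclideanSpace.single i (1 : ℝ))
      (EuclideanSpace.single j (1 : ℝ)) := fderiv_fderiv_apply hf _ x _
  have h2 : pd j (pd i f) x = fderiv ℝ (fderiv ℝ f) x (EuclideanSpace.single j (1 : ℝ))
      (EuclideanSpace.single i (1 : ℝ)) := fderiv_fderiv_apply hf _ x _
  rw [h1, h2, second_symm hf]

lemma pd_sum {ι : Type*} (s : Finset ι) (F : ι → E d → ℂ) (hF : ∀ i, ContDiff ℝ ∞ (F i))
    (j : Fin d) (x : E d) : pd j (fun y => ∑ i ∈ s, F i y) x = ∑ i ∈ s, pd j (F i) x := by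
  unfold pd
  rw [fderiv_fun_sum fun i _ => diffAt (hF i) x]
  simp

lemma pd_lap (hf : ContDiff ℝ ∞ f) (i : Fin d) (x : E d) : pd i (lap f) x = lap (pd i f) x := by
  unfold lap
  rw [pd_sum _ (fun j => pd j (pd j f)) (fun j => contDiff_pd (contDiff_pd hf j) j)]
  refine Finset.sum_congr rfl fun j _ => ?_
  rw [pd_comm (contDiff_pd hf j) i j, pd_comm hf i j]

/-- Derivative of the Euler operator. -/
lemma fderiv_eul (hf : ContDiff ℝ ∞ f) (x v : E d) :
    fderiv ℝ (eul f) x v = fderiv ℝ f x v + fderiv ℝ (fderiv ℝ f) x v x := by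
  have h1 : HasFDerivAt (fun y => fderiv ℝ f y y)
      ((fderiv ℝ f x).comp (ContinuousLinearMap.id ℝ (E d)) +
        (fderiv ℝ (fderiv ℝ f) x).flip x) x :=
    (diffAt_fderiv hf x).hasFDerivAt.clm_apply (hasFDerivAt_id x)
  have h2 : eul f = fun y => fderiv ℝ f y y := rfl
  rw [h2, h1.fderiv]
  rfl

lemma pd_eul (hf : ContDiff ℝ ∞ f) (i : Fin d) (x : E d) :
    pd i (eul f) x = pd i f x + eul (pd i f) x := by
  have h1 : pd i (eul f) x = fderiv ℝ f x (EuclideanSpace.single i (1 : ℝ)) +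
      fderiv ℝ (fderiv ℝ f) x (EuclideanSpace.single i (1 : ℝ)) x := fderiv_eul hf x _
  have h2 : eul (pd i f) x = fderiv ℝ (fderiv ℝ f) x x (EuclideanSpace.single i (1 : ℝ)) :=
    fderiv_fderiv_apply hf _ x x
  rw [h1, h2, second_symm hf x x]
  rfl

lemma lap_eul (hf : ContDiff ℝ ∞ f) (x : E d) :
    lap (eul f) x = 2 * lap f x + eul (lap f) x := by
  have h0 : ∀ j : Fin d, pd j (eul f) = fun x => pd j f x + eul (pd j f) x := fun j => by
    funext x
    exact pd_eul hf j x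
  have h1 : lap (eul f) x = ∑ j, (2 * pd j (pd j f) x + eul (pd j (pd j f)) x) := by
    unfold lap
    refine Finset.sum_congr rfl fun j _ => ?_
    rw [h0 j, pd_add (contDiff_pd hf j) (contDiff_eul (contDiff_pd hf j))]
    simp only
    rw [pd_eul (contDiff_pd hf j)]
    ring
  have h2 : eul (lap f) x = ∑ j, eul (pd j (pd j f)) x := by
    unfold eul lap
    rw [fderiv_fun_sum fun j _ => diffAt (contDiff_pd (contDiff_pd hf j) j) x]
    simp
  rw [h1, h2, Finset.sum_add_distrib, ← Finset.mul_sum]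
  rfl

end calculus

/-! ### The linearised operators on smooth pairs -/

section LL

variable {m : ℕ} {w : ℝ} {Q f g f' g' : E d → ℂ}

lemma LL1_add (hf : ContDiff ℝ ∞ f) (hf' : ContDiff ℝ ∞ f') (x : E d) :
    LL1 m w Q (fun x => f x + f' x) (fun x => g x + g' x) x =
      LL1 m w Q f g x + LL1 m w Q f' g' x := by
  unfold LL1
  rw [lap_add hf hf', eul_add hf hf']
  ring

lemma LL2_add (hg : ContDiff ℝ ∞ g) (hg' : ContDiff ℝ ∞ g') (x : E d) :
    LL2 m w Q (fun x => f x + f' x) (fun x => g x + g' x) x =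
      LL2 m w Q f g x + LL2 m w Q f' g' x := by
  unfold LL2
  rw [lap_add hg hg', eul_add hg hg']
  ring

lemma LL1_const_mul (c : ℂ) (hf : ContDiff ℝ ∞ f) (x : E d) :
    LL1 m w Q (fun x => c * f x) (fun x => c * g x) x = c * LL1 m w Q f g x := by
  unfold LL1
  rw [lap_const_mul c hf, eul_const_mul c hf]
  ring

lemma LL2_const_mul (c : ℂ) (hg : ContDiff ℝ ∞ g) (x : E d) :
    LL2 m w Q (fun x => c * f x) (fun x => c * g x) x = c * LL2 m w Q f g x := by
  unfold LL2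
  rw [lap_const_mul c hg, eul_const_mul c hg]
  ring

lemma conj_W1 (m : ℕ) (z : ℂ) : conj (W1 m z) = W1 m z := by
  unfold W1
  rw [map_pow, map_mul, Complex.conj_conj, mul_comm]

/-- On real pairs `(f, conj f)` the second component is the conjugate of the first. -/
lemma LL2_conj (hf : ContDiff ℝ ∞ f) (x : E d) :
    LL2 m w Q f (fun x => conj (f x)) x = conj (LL1 m w Q f (fun x => conj (f x)) x) := by
  unfold LL2 LL1
  rw [lap_conj hf, eul_conj (diffAt hf x)]
  simp only [map_sub, map_add, map_mul, conj_W1, Complex.conj_conj, conj_I, Complex.conj_ofReal,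
    map_div₀, map_one, map_ofNat, map_natCast]
  ring

lemma W2_mul_conj (m : ℕ) (z : ℂ) : (m : ℂ) * (W2 m z * conj z) = (m : ℂ) * (W1 m z * z) := by
  rcases m with _ | m
  · simp
  · unfold W1 W2
    simp only [Nat.add_sub_cancel]
    ring

/-- Directional derivative of the nonlinearity. -/
lemma fderiv_nonlin (hQ : ContDiff ℝ ∞ Q) (m : ℕ) (x v : E d) :
    fderiv ℝ (fun x => W1 m (Q x) * Q x) x v =
      ((m : ℂ) + 1) * W1 m (Q x) * fderiv ℝ Q x v +
        (m : ℂ) * W2 m (Q x) * conj (fderiv ℝ Q x v) := by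
  have h0 : (fun x => W1 m (Q x) * Q x) = fun x => Q x ^ (m + 1) * conj (Q x) ^ m := by
    funext y
    unfold W1
    rw [mul_pow]
    ring
  have h1 : HasFDerivAt Q (fderiv ℝ Q x) x := (diffAt hQ x).hasFDerivAt
  have h2 : HasFDerivAt (fun x => conj (Q x)) ((conjCLE : ℂ →L[ℝ] ℂ).comp (fderiv ℝ Q x)) x :=
    hasFDerivAt_conj (diffAt hQ x)
  have h3 := (h1.pow (m + 1)).mul (h2.pow m)
  have h3' : fderiv ℝ (fun x => Q x ^ (m + 1) * conj (Q x) ^ m) x = _ := h3.fderiv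
  rw [h0, h3']
  simp only [add_apply, smul_apply, smul_eq_mul,
    ContinuousLinearMap.comp_apply, nsmul_eq_mul]
  have h4 : (conjCLE : ℂ →L[ℝ] ℂ) (fderiv ℝ Q x v) = conj (fderiv ℝ Q x v) := rfl
  rcases m with _ | m
  · simp [W1]
  · unfold W1 W2
    simp only [Nat.add_sub_cancel]
    rw [h4]
    push_cast
    rw [mul_pow]
    ring

end LL

/-! ### The modes are eigenfunctions -/

section modes

variable {m : ℕ} {w : ℝ} {Q : E d → ℂ}

lemma IsProfile.smooth (hQ : IsProfile d m w Q) : ContDiff ℝ ∞ Q := by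
  obtain ⟨h, hh, hQh⟩ := hQ.radial
  have : Q = fun x => h (‖x‖ ^ 2) := funext hQh
  rw [this]
  exact hh.comp (contDiff_norm_sq ℝ)

/-- The profile equation multiplied by `i`. -/
lemma IsProfile.eqn' (hQ : IsProfile d m w Q) (x : E d) :
    I * lap Q x = (1 / 2) * eul Q x + ((aa m : ℂ) - I * w) * Q x + I * (W1 m (Q x) * Q x) := by
  have h := hQ.eqn x
  rw [← h]
  have hI : I * I = -1 := I_mul_I
  linear_combination (-(1 / 2) * eul Q x - (aa m : ℂ) * Q x) * hI

/-- Any derivation-type consequence of the profile equation in direction `pd j`. -/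
lemma pd_eqn (hQ : IsProfile d m w Q) (j : Fin d) (x : E d) :
    I * lap (pd j Q) x = (1 / 2) * (pd j Q x + eul (pd j Q) x) +
      ((aa m : ℂ) - I * w) * pd j Q x +
      I * (((m : ℂ) + 1) * W1 m (Q x) * pd j Q x + (m : ℂ) * W2 m (Q x) * conj (pd j Q x)) := by
  have hs := IsProfile.smooth hQ
  have hN : ContDiff ℝ ∞ (fun x => W1 m (Q x) * Q x) := by
    have h0 : (fun x => W1 m (Q x) * Q x) = fun x => Q x ^ (m + 1) * conj (Q x) ^ m := by
      funext y
      unfold W1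
      rw [mul_pow]
      ring
    rw [h0]
    exact (hs.pow _).mul ((contDiff_conj hs).pow _)
  have h1 : (fun x => I * lap Q x) = fun x => ((1 / 2) * eul Q x +
      ((aa m : ℂ) - I * w) * Q x) + I * (W1 m (Q x) * Q x) := by
    funext y
    exact IsProfile.eqn' hQ y
  have h2 := congrFun (congrArg (pd j) h1) x
  rw [pd_const_mul I (contDiff_lap hs), pd_add ((contDiff_const.mul (contDiff_eul hs)).add
    (contDiff_const.mul hs)) (contDiff_const.mul hN), pd_add (contDiff_const.mul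
    (contDiff_eul hs)) (contDiff_const.mul hs), pd_const_mul _ (contDiff_eul hs),
    pd_const_mul _ hs, pd_const_mul _ hN] at h2
  simp only at h2
  rw [pd_lap hs, pd_eul hs] at h2
  have h3 : pd j (fun x => W1 m (Q x) * Q x) x =
      ((m : ℂ) + 1) * W1 m (Q x) * pd j Q x + (m : ℂ) * W2 m (Q x) * conj (pd j Q x) :=
    fderiv_nonlin hs m x _
  rw [h3] at h2
  exact h2

lemma eul_eqn (hQ : IsProfile d m w Q) (x : E d) :
    I * eul (lap Q) x = (1 / 2) * eul (eul Q) x +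
      ((aa m : ℂ) - I * w) * eul Q x +
      I * (((m : ℂ) + 1) * W1 m (Q x) * eul Q x + (m : ℂ) * W2 m (Q x) * conj (eul Q x)) := by
  have hs := IsProfile.smooth hQ
  have hN : ContDiff ℝ ∞ (fun x => W1 m (Q x) * Q x) := by
    have h0 : (fun x => W1 m (Q x) * Q x) = fun x => Q x ^ (m + 1) * conj (Q x) ^ m := by
      funext y
      unfold W1
      rw [mul_pow]
      ring
    rw [h0]
    exact (hs.pow _).mul ((contDiff_conj hs).pow _)
  have h1 : (fun x => I * lap Q x) = fun x => ((1 / 2) * eul Q x +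
      ((aa m : ℂ) - I * w) * Q x) + I * (W1 m (Q x) * Q x) := by
    funext y
    exact IsProfile.eqn' hQ y
  have h2 := congrFun (congrArg eul h1) x
  rw [eul_const_mul I (contDiff_lap hs), eul_add ((contDiff_const.mul (contDiff_eul hs)).add
    (contDiff_const.mul hs)) (contDiff_const.mul hN), eul_add (contDiff_const.mul
    (contDiff_eul hs)) (contDiff_const.mul hs), eul_const_mul _ (contDiff_eul hs),
    eul_const_mul _ hs, eul_const_mul _ hN] at h2
  have h3 : eul (fun x => W1 m (Q x) * Q x) x =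
      ((m : ℂ) + 1) * W1 m (Q x) * eul Q x + (m : ℂ) * W2 m (Q x) * conj (eul Q x) :=
    fderiv_nonlin hs m x _
  rw [h3] at h2
  exact h2

lemma contDiff_phaseMode (hs : ContDiff ℝ ∞ Q) : ContDiff ℝ ∞ (phaseMode Q) :=
  contDiff_const.mul hs

lemma contDiff_timeMode (hs : ContDiff ℝ ∞ Q) : ContDiff ℝ ∞ (timeMode m w Q) :=
  (contDiff_const.mul hs).add (contDiff_const.mul (contDiff_eul hs))

/-- `iQ` is an eigenfunction with eigenvalue `0`. -/
theorem LL1_phaseMode (hQ : IsProfile d m w Q) (x : E d) :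
    LL1 m w Q (phaseMode Q) (fun x => conj (phaseMode Q x)) x = 0 := by
  have hs := IsProfile.smooth hQ
  have h1 : phaseMode Q = fun x => I * Q x := rfl
  unfold LL1
  rw [h1, lap_const_mul I hs, eul_const_mul I hs]
  simp only [map_mul, conj_I]
  have h2 := IsProfile.eqn' hQ x
  have h3 := W2_mul_conj m (Q x)
  have hI : I * I = -1 := I_mul_I
  linear_combination I * h2 - h3 + (((m:ℂ)) * W2 m (Q x) * conj (Q x) - (m:ℂ) * W1 m (Q x) * Q x) * hI

/-- `∂_j Q` is an eigenfunction with eigenvalue `1/2`. -/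
theorem LL1_pd (hQ : IsProfile d m w Q) (j : Fin d) (x : E d) :
    LL1 m w Q (pd j Q) (fun x => conj (pd j Q x)) x = (1 / 2) * pd j Q x := by
  unfold LL1
  have h2 := pd_eqn hQ j x
  linear_combination h2

/-- `(a-iw)Q + (1/2) y·∇Q` is an eigenfunction with eigenvalue `1` (`m ≥ 1`). -/
theorem LL1_timeMode (hm : 1 ≤ m) (hQ : IsProfile d m w Q) (x : E d) :
    LL1 m w Q (timeMode m w Q) (fun x => conj (timeMode m w Q x)) x = timeMode m w Q x := by
  have hs := IsProfile.smooth hQ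
  have ha : (m : ℂ) * (aa m : ℂ) = 1 / 2 := by
    have : (m : ℝ) ≠ 0 := by positivity
    have h1 : (m : ℝ) * aa m = 1 / 2 := by
      unfold aa
      field_simp
    have h2 := congrArg (fun t : ℝ => (t : ℂ)) h1
    push_cast at h2
    exact h2
  have e0 : timeMode m w Q = fun x => ((aa m : ℂ) - I * (w : ℂ)) * Q x + (1 / 2) * eul Q x := rfl
  have h1 : lap (timeMode m w Q) x =
      ((aa m : ℂ) - I * (w : ℂ)) * lap Q x + (1 / 2) * (2 * lap Q x + eul (lap Q) x) := by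
    rw [e0, lap_add (contDiff_const.mul hs) (contDiff_const.mul (contDiff_eul hs)),
      lap_const_mul _ hs, lap_const_mul _ (contDiff_eul hs), lap_eul hs]
  have h2 : eul (timeMode m w Q) x =
      ((aa m : ℂ) - I * (w : ℂ)) * eul Q x + (1 / 2) * eul (eul Q) x := by
    rw [e0, eul_add (contDiff_const.mul hs) (contDiff_const.mul (contDiff_eul hs)),
      eul_const_mul _ hs, eul_const_mul _ (contDiff_eul hs)]
  have h3 : conj (timeMode m w Q x) =
      ((aa m : ℂ) + I * (w : ℂ)) * conj (Q x) + (1 / 2) * conj (eul Q x) := by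
    rw [e0]
    simp only [map_add, map_mul, map_sub, conj_I, Complex.conj_ofReal, map_div₀, map_one,
      map_ofNat]
    ring
  unfold LL1
  beta_reduce
  rw [h1, h2, h3, e0]
  beta_reduce
  have hE := eul_eqn hQ x
  have hP := IsProfile.eqn' hQ x
  have hW := W2_mul_conj m (Q x)
  linear_combination (1 / 2) * hE + ((aa m : ℂ) - I * (w : ℂ) + 1) * hP
    - I * ((aa m : ℂ) + I * (w : ℂ)) * hW - 2 * I * (W1 m (Q x) * Q x) * ha

lemma LL2_phaseMode (hQ : IsProfile d m w Q) (x : E d) :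
    LL2 m w Q (phaseMode Q) (fun x => conj (phaseMode Q x)) x = 0 := by
  rw [LL2_conj (contDiff_phaseMode (IsProfile.smooth hQ)), LL1_phaseMode hQ, map_zero]

lemma LL2_pd (hQ : IsProfile d m w Q) (j : Fin d) (x : E d) :
    LL2 m w Q (pd j Q) (fun x => conj (pd j Q x)) x = (1 / 2) * conj (pd j Q x) := by
  rw [LL2_conj (contDiff_pd (IsProfile.smooth hQ) j), LL1_pd hQ]
  simp only [map_mul, map_div₀, map_one, map_ofNat]

lemma LL2_timeMode (hm : 1 ≤ m) (hQ : IsProfile d m w Q) (x : E d) :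
    LL2 m w Q (timeMode m w Q) (fun x => conj (timeMode m w Q x)) x = conj (timeMode m w Q x) := by
  rw [LL2_conj (contDiff_timeMode (IsProfile.smooth hQ)), LL1_timeMode hm hQ]

/-! ### Symbol bounds -/

/-- `f` is smooth with symbol bounds of order `-δ`. -/
def Symb (δ : ℝ) (f : E d → ℂ) : Prop :=
  ContDiff ℝ ∞ f ∧ ∀ k : ℕ, ∃ C : ℝ, ∀ x, ‖iteratedFDeriv ℝ k f x‖ ≤ C * (1 + ‖x‖) ^ (-δ - (k : ℝ))

lemma Symb.smooth {δ : ℝ} {f : E d → ℂ} (hf : Symb δ f) : ContDiff ℝ ∞ f := hf.1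

lemma IsProfile.symb (hQ : IsProfile d m w Q) : Symb (2 * aa m) Q := by
  refine ⟨IsProfile.smooth hQ, fun k => ?_⟩
  obtain ⟨C, hC⟩ := hQ.symbol k
  exact ⟨C, hC⟩

lemma Symb.exists_nonneg {δ : ℝ} {f : E d → ℂ} (hf : Symb δ f) (k : ℕ) :
    ∃ C : ℝ, 0 ≤ C ∧ ∀ x, ‖iteratedFDeriv ℝ k f x‖ ≤ C * (1 + ‖x‖) ^ (-δ - (k : ℝ)) := by
  obtain ⟨C, hC⟩ := hf.2 k
  refine ⟨max C 0, le_max_right _ _, fun x => (hC x).trans ?_⟩
  have : (0 : ℝ) ≤ (1 + ‖x‖) ^ (-δ - (k : ℝ)) := by positivity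
  exact mul_le_mul_of_nonneg_right (le_max_left _ _) this

/-- Symbols of nonnegative order have bounded derivatives. -/
lemma Symb.bddC {δ : ℝ} (hδ : 0 ≤ δ) {f : E d → ℂ} (hf : Symb δ f) (K : ℕ) : BddC K f := by
  refine ⟨hf.1.of_le (by exact_mod_cast le_top), fun k _ => ?_⟩
  obtain ⟨C, hC0, hC⟩ := hf.exists_nonneg k
  refine ⟨C, fun x => (hC x).trans ?_⟩
  have h1 : (1 + ‖x‖) ^ (-δ - (k : ℝ)) ≤ 1 := by
    apply Real.rpow_le_one_of_one_le_of_nonpos
    · linarith [norm_nonneg x]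
    · have : (0 : ℝ) ≤ k := Nat.cast_nonneg k
      linarith
  calc C * (1 + ‖x‖) ^ (-δ - (k : ℝ)) ≤ C * 1 := by gcongr
    _ = C := mul_one C

lemma Symb.add {δ : ℝ} {f g : E d → ℂ} (hf : Symb δ f) (hg : Symb δ g) :
    Symb δ (fun x => f x + g x) := by
  refine ⟨hf.1.add hg.1, fun k => ?_⟩
  obtain ⟨C, hC⟩ := hf.2 k
  obtain ⟨D, hD⟩ := hg.2 k
  refine ⟨C + D, fun x => ?_⟩
  have h1 : iteratedFDeriv ℝ k (fun x => f x + g x) x =
      iteratedFDeriv ℝ k f x + iteratedFDeriv ℝ k g x :=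
    iteratedFDeriv_add_apply (hf.1.of_le (by exact_mod_cast le_top)).contDiffAt
      (hg.1.of_le (by exact_mod_cast le_top)).contDiffAt
  rw [h1, add_mul]
  exact (norm_add_le _ _).trans (add_le_add (hC x) (hD x))

lemma Symb.const_mul {δ : ℝ} {f : E d → ℂ} (hf : Symb δ f) (c : ℂ) :
    Symb δ (fun x => c * f x) := by
  refine ⟨contDiff_const.mul hf.1, fun k => ?_⟩
  obtain ⟨C, hC⟩ := hf.2 k
  refine ⟨‖c‖ * C, fun x => ?_⟩
  have h1 : iteratedFDeriv ℝ k (fun x => c • f x) x = c • iteratedFDeriv ℝ k f x :=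
    iteratedFDeriv_const_smul_apply' (hf.1.of_le (by exact_mod_cast le_top)).contDiffAt
  have h2 : (fun x => c * f x) = fun x => c • f x := rfl
  rw [h2, h1, norm_smul, mul_assoc]
  exact mul_le_mul_of_nonneg_left (hC x) (norm_nonneg c)

lemma Symb.conj {δ : ℝ} {f : E d → ℂ} (hf : Symb δ f) : Symb δ (fun x => conj (f x)) := by
  refine ⟨contDiff_conj hf.1, fun k => ?_⟩
  obtain ⟨C, hC⟩ := hf.2 k
  refine ⟨C, fun x => ?_⟩
  have h1 : ‖iteratedFDeriv ℝ k (fun x => (conjLIE : ℂ ≃ₗᵢ[ℝ] ℂ) (f x)) x‖ =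
      ‖iteratedFDeriv ℝ k f x‖ :=
    LinearIsometryEquiv.norm_iteratedFDeriv_comp_left (conjLIE : ℂ ≃ₗᵢ[ℝ] ℂ) f x k
  have h2 : (fun x => (conjLIE : ℂ ≃ₗᵢ[ℝ] ℂ) (f x)) = fun x => (starRingEnd ℂ) (f x) := by
    funext x
    rfl
  rw [h2] at h1
  rw [h1]
  exact hC x

/-- Derivatives of symbols. -/
lemma Symb.pd {δ : ℝ} {f : E d → ℂ} (hf : Symb δ f) (j : Fin d) : Symb (δ + 1) (pd j f) := by
  refine ⟨contDiff_pd hf.1 j, fun k => ?_⟩
  obtain ⟨C, hC0, hC⟩ := hf.exists_nonneg (k + 1)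
  refine ⟨C, fun x => ?_⟩
  set L : (E d →L[ℝ] ℂ) →L[ℝ] ℂ :=
    ContinuousLinearMap.apply ℝ ℂ (EuclideanSpace.single j (1 : ℝ)) with hL
  have hLn : ‖L‖ ≤ 1 := by
    refine ContinuousLinearMap.opNorm_le_bound _ zero_le_one fun T => ?_
    rw [hL, ContinuousLinearMap.apply_apply, one_mul]
    refine (T.le_opNorm _).trans ?_
    rw [PiLp.norm_single, norm_one, mul_one]
  have h1 : BU.pd j f = L ∘ fderiv ℝ f := rfl
  have h2 : ‖iteratedFDeriv ℝ k (L ∘ fderiv ℝ f) x‖ ≤ ‖L‖ * ‖iteratedFDeriv ℝ k (fderiv ℝ f) x‖ :=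
    L.norm_iteratedFDeriv_comp_left (contDiff_fderiv' hf.1).contDiffAt (by exact_mod_cast le_top)
  rw [h1]
  refine h2.trans ?_
  rw [norm_iteratedFDeriv_fderiv]
  have h3 := hC x
  have e : (-δ - ((k + 1 : ℕ) : ℝ)) = (-(δ + 1) - (k : ℝ)) := by
    push_cast
    ring
  rw [e] at h3
  calc ‖L‖ * ‖iteratedFDeriv ℝ (k + 1) f x‖ ≤ 1 * ‖iteratedFDeriv ℝ (k + 1) f x‖ := by gcongr
    _ = ‖iteratedFDeriv ℝ (k + 1) f x‖ := one_mul _
    _ ≤ _ := h3

lemma Symb.mono {δ δ' : ℝ} (h : δ' ≤ δ) {f : E d → ℂ} (hf : Symb δ f) : Symb δ' f := by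
  refine ⟨hf.1, fun k => ?_⟩
  obtain ⟨C, hC0, hC⟩ := hf.exists_nonneg k
  refine ⟨C, fun x => (hC x).trans ?_⟩
  have : (1 + ‖x‖) ^ (-δ - (k : ℝ)) ≤ (1 + ‖x‖) ^ (-δ' - (k : ℝ)) :=
    Real.rpow_le_rpow_of_exponent_le (by linarith [norm_nonneg x]) (by linarith)
  gcongr

/-- `y · ∇ f` has the same order as `f`. -/
lemma Symb.eul {δ : ℝ} {f : E d → ℂ} (hf : Symb δ f) : Symb δ (eul f) := by
  refine ⟨contDiff_eul hf.1, fun k => ?_⟩
  obtain ⟨C, hC0, hC⟩ := hf.exists_nonneg (k + 1)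
  obtain ⟨D, hD0, hD⟩ := hf.exists_nonneg k
  refine ⟨C + k * D, fun x => ?_⟩
  have hx : 0 < 1 + ‖x‖ := by positivity
  have h1 := norm_iteratedFDeriv_clm_apply (𝕜 := ℝ) (n := k) (N := ∞)
    (f := fun y : E d => fderiv ℝ f y) (g := fun y : E d => y) (contDiff_fderiv' hf.1)
    contDiff_id x (by exact_mod_cast le_top)
  have h0 : BU.eul f = fun y => fderiv ℝ f y y := rfl
  rw [h0]
  refine h1.trans ?_
  -- only the two terms `i = k` and `i = k - 1` survive
  have hterm : ∀ i ∈ Finset.range (k + 1),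
      (k.choose i : ℝ) * ‖iteratedFDeriv ℝ i (fun y : E d => fderiv ℝ f y) x‖ *
        ‖iteratedFDeriv ℝ (k - i) (fun y : E d => y) x‖ ≤
      (if i = k then C * (1 + ‖x‖) ^ (-δ - (k : ℝ)) else 0) +
      (if i + 1 = k then k * D * (1 + ‖x‖) ^ (-δ - (k : ℝ)) else 0) := by
    intro i hi
    have hik : i ≤ k := by
      have := Finset.mem_range.mp hi
      omega
    by_cases h : i = k
    · subst h
      have hne : ¬ (i + 1 = i) := by omega
      rw [if_pos rfl, if_neg hne, add_zero, Nat.choose_self, Nat.cast_one, one_mul, Nat.sub_self,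
        norm_iteratedFDeriv_zero]
      have h3 : ‖iteratedFDeriv ℝ i (fun y : E d => fderiv ℝ f y) x‖ ≤
          C * (1 + ‖x‖) ^ (-δ - ((i + 1 : ℕ) : ℝ)) := by
        have := norm_iteratedFDeriv_fderiv (𝕜 := ℝ) (f := f) (x := x) (n := i)
        rw [show (fun y : E d => fderiv ℝ f y) = fderiv ℝ f from rfl, this]
        exact hC x
      have h4 : (1 + ‖x‖) ^ (-δ - ((i + 1 : ℕ) : ℝ)) * ‖x‖ ≤ (1 + ‖x‖) ^ (-δ - (i : ℝ)) := by
        have : (-δ - (i : ℝ)) = (-δ - ((i + 1 : ℕ) : ℝ)) + 1 := by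
          push_cast
          ring
        rw [this, Real.rpow_add hx, Real.rpow_one]
        have : ‖x‖ ≤ 1 + ‖x‖ := by linarith
        gcongr
      calc ‖iteratedFDeriv ℝ i (fun y : E d => fderiv ℝ f y) x‖ * ‖x‖
          ≤ (C * (1 + ‖x‖) ^ (-δ - ((i + 1 : ℕ) : ℝ))) * ‖x‖ := by gcongr
        _ = C * ((1 + ‖x‖) ^ (-δ - ((i + 1 : ℕ) : ℝ)) * ‖x‖) := by ring
        _ ≤ C * (1 + ‖x‖) ^ (-δ - (i : ℝ)) := by gcongr
    · by_cases h' : i + 1 = k
      · subst h'
        rw [if_neg h, if_pos rfl, zero_add]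
        have h5 : i + 1 - i = 1 := by omega
        have h6 : ‖iteratedFDeriv ℝ 1 (fun y : E d => y) x‖ ≤ 1 := by
          rw [← norm_iteratedFDeriv_fderiv, norm_iteratedFDeriv_zero]
          have : fderiv ℝ (fun y : E d => y) x = ContinuousLinearMap.id ℝ (E d) := fderiv_fun_id
          rw [this]
          exact ContinuousLinearMap.norm_id_le
        have h3 : ‖iteratedFDeriv ℝ i (fun y : E d => fderiv ℝ f y) x‖ ≤
            D * (1 + ‖x‖) ^ (-δ - ((i + 1 : ℕ) : ℝ)) := by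
          have := norm_iteratedFDeriv_fderiv (𝕜 := ℝ) (f := f) (x := x) (n := i)
          rw [show (fun y : E d => fderiv ℝ f y) = fderiv ℝ f from rfl, this]
          exact hD x
        have h7 : ((i + 1).choose i : ℝ) = ((i + 1 : ℕ) : ℝ) := by
          rw [Nat.choose_succ_self_right]
        rw [h5, h7]
        calc ((i + 1 : ℕ) : ℝ) * ‖iteratedFDeriv ℝ i (fun y : E d => fderiv ℝ f y) x‖ *
              ‖iteratedFDeriv ℝ 1 (fun y : E d => y) x‖
            ≤ ((i + 1 : ℕ) : ℝ) * (D * (1 + ‖x‖) ^ (-δ - ((i + 1 : ℕ) : ℝ))) * 1 := by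
              gcongr
          _ = ((i + 1 : ℕ) : ℝ) * D * (1 + ‖x‖) ^ (-δ - ((i + 1 : ℕ) : ℝ)) := by ring
      · rw [if_neg h, if_neg h', add_zero]
        obtain ⟨j, hj⟩ : ∃ j, k - i = j + 2 := ⟨k - i - 2, by omega⟩
        have h8 : ‖iteratedFDeriv ℝ (k - i) (fun y : E d => y) x‖ = 0 := by
          rw [hj, ← norm_iteratedFDeriv_fderiv]
          have : fderiv ℝ (fun y : E d => y) = fun _ => ContinuousLinearMap.id ℝ (E d) := by
            funext y
            exact fderiv_fun_id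
          rw [this, iteratedFDeriv_const_of_ne (by omega)]
          simp
        rw [h8, mul_zero]
  refine (Finset.sum_le_sum hterm).trans ?_
  rw [Finset.sum_add_distrib]
  have s1 : ∑ i ∈ Finset.range (k + 1), (if i = k then C * (1 + ‖x‖) ^ (-δ - (k : ℝ)) else 0) ≤
      C * (1 + ‖x‖) ^ (-δ - (k : ℝ)) := by
    rw [Finset.sum_ite_eq' (Finset.range (k + 1)) k]
    split_ifs
    · exact le_rfl
    · positivity
  have s2 : ∑ i ∈ Finset.range (k + 1),
      (if i + 1 = k then k * D * (1 + ‖x‖) ^ (-δ - (k : ℝ)) else 0) ≤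
      k * D * (1 + ‖x‖) ^ (-δ - (k : ℝ)) := by
    rcases k with _ | k
    · simp
    · have : ∀ i : ℕ, (i + 1 = k + 1) = (i = k) := fun i => by simp
      simp only [this]
      rw [Finset.sum_ite_eq' (Finset.range (k + 1 + 1)) k]
      split_ifs
      · exact le_rfl
      · positivity
  calc _ ≤ C * (1 + ‖x‖) ^ (-δ - (k : ℝ)) + k * D * (1 + ‖x‖) ^ (-δ - (k : ℝ)) := add_le_add s1 s2
    _ = (C + k * D) * (1 + ‖x‖) ^ (-δ - (k : ℝ)) := by ring

lemma symb_phaseMode (hQ : IsProfile d m w Q) : Symb (2 * aa m) (phaseMode Q) :=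
  (IsProfile.symb hQ).const_mul I

lemma symb_pd (hQ : IsProfile d m w Q) (j : Fin d) : Symb (2 * aa m + 1) (pd j Q) :=
  (IsProfile.symb hQ).pd j

lemma symb_timeMode (hQ : IsProfile d m w Q) : Symb (2 * aa m) (timeMode m w Q) :=
  ((IsProfile.symb hQ).const_mul _).add ((IsProfile.symb hQ).eul.const_mul _)

lemma aa_nonneg (m : ℕ) : 0 ≤ aa m := by
  unfold aa
  positivity

end modes

end Vale.Agent.P139.H730
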