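import Mathlib

/-!
# Radial symbol lemma (block RS)

From derivative bounds of a function `h` of one real variable `z = |x|^2` to derivative bounds of
`x ↦ h (|x|^2)` on an inner product space.
-/

open Set
open scoped ContDiff

namespace Vale.Agent.P139.H730

variable {E : Type*} [NormedAddCommGroup E] [InnerProductSpace ℝ E]
variable {F : Type*} [NormedAddCommGroup F] [NormedSpace ℝ F]

/-- The square of the norm. -/
noncomputable def nsq (x : E) : ℝ := ‖x‖ ^ 2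

lemma contDiff_nsq {n : ℕ∞ω} : ContDiff ℝ n (nsq : E → ℝ) := contDiff_norm_sq ℝ

lemma fderiv_nsq (x : E) : fderiv ℝ (nsq : E → ℝ) x = (2 : ℝ) • innerSL ℝ x := by
  have := (hasStrictFDerivAt_norm_sq x).hasFDerivAt.fderiv
  have h2 : (nsq : E → ℝ) = fun x => ‖x‖ ^ 2 := rfl
  rw [h2, this]
  ext y
  simp [two_smul]

lemma fderiv_nsq' : fderiv ℝ (nsq : E → ℝ) = fun x => ((2 : ℝ) • (innerSL ℝ : E →L[ℝ] E →L[ℝ] ℝ)) x := by
  funext x
  rw [fderiv_nsq]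
  rfl

lemma norm_innerSL_le_one : ‖(innerSL ℝ : E →L[ℝ] E →L[ℝ] ℝ)‖ ≤ 1 := by
  refine ContinuousLinearMap.opNorm_le_bound _ zero_le_one fun x => ?_
  rw [innerSL_apply_norm, one_mul]

lemma norm_iteratedFDeriv_nsq_one (x : E) : ‖iteratedFDeriv ℝ 1 (nsq : E → ℝ) x‖ ≤ 2 * ‖x‖ := by
  rw [← norm_iteratedFDeriv_fderiv, norm_iteratedFDeriv_zero, fderiv_nsq, norm_smul,
    innerSL_apply_norm]
  simp

lemma norm_iteratedFDeriv_nsq_two (x : E) : ‖iteratedFDeriv ℝ 2 (nsq : E → ℝ) x‖ ≤ 2 := by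
  rw [← norm_iteratedFDeriv_fderiv, ← norm_iteratedFDeriv_fderiv, norm_iteratedFDeriv_zero,
    fderiv_nsq', ContinuousLinearMap.fderiv, norm_smul]
  have := norm_innerSL_le_one (E := E)
  simp only [Real.norm_ofNat]
  linarith

lemma iteratedFDeriv_nsq_ge (x : E) (k : ℕ) :
    ‖iteratedFDeriv ℝ (k + 3) (nsq : E → ℝ) x‖ = 0 := by
  rw [← norm_iteratedFDeriv_fderiv, ← norm_iteratedFDeriv_fderiv, fderiv_nsq']
  have : (fderiv ℝ (fun x : E => ((2 : ℝ) • (innerSL ℝ : E →L[ℝ] E →L[ℝ] ℝ)) x)) =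
      fun _ => ((2 : ℝ) • (innerSL ℝ : E →L[ℝ] E →L[ℝ] ℝ)) := by
    funext y
    exact ContinuousLinearMap.fderiv _
  rw [this, iteratedFDeriv_const_of_ne (by omega)]
  simp

/-- Scaled version: the derivatives of `|x|^2 / ρ^2` at a point of norm `ρ` are bounded by
`(2/ρ)^i`. -/
lemma norm_iteratedFDeriv_nsq_scaled {ρ : ℝ} (hρ : 0 < ρ) {x : E} (hx : ‖x‖ = ρ) (i : ℕ)
    (hi : 1 ≤ i) :
    ‖iteratedFDeriv ℝ i (fun y : E => (ρ ^ 2)⁻¹ • nsq y) x‖ ≤ (2 / ρ) ^ i := by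
  have h0 : iteratedFDeriv ℝ i (fun y : E => (ρ ^ 2)⁻¹ • nsq y) x =
      (ρ ^ 2)⁻¹ • iteratedFDeriv ℝ i (nsq : E → ℝ) x :=
    iteratedFDeriv_const_smul_apply' (contDiff_nsq (n := (i : ℕ∞ω))).contDiffAt
  rw [h0, norm_smul, norm_inv, Real.norm_of_nonneg (by positivity)]
  rcases i with _ | _ | _ | k
  · omega
  · have h1 := norm_iteratedFDeriv_nsq_one x
    rw [hx] at h1
    calc (ρ ^ 2)⁻¹ * ‖iteratedFDeriv ℝ (0 + 1) (nsq : E → ℝ) x‖ ≤ (ρ ^ 2)⁻¹ * (2 * ρ) := by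
          gcongr
    _ = (2 / ρ) ^ (0 + 1) := by
          rw [zero_add, pow_one]
          field_simp
  · have h1 := norm_iteratedFDeriv_nsq_two x
    calc (ρ ^ 2)⁻¹ * ‖iteratedFDeriv ℝ (0 + 1 + 1) (nsq : E → ℝ) x‖ ≤ (ρ ^ 2)⁻¹ * 2 := by
          gcongr
    _ ≤ (2 / ρ) ^ (0 + 1 + 1) := by
          rw [div_pow]
          norm_num
          rw [div_eq_mul_inv, mul_comm]
          gcongr
          norm_num
  · rw [iteratedFDeriv_nsq_ge, mul_zero]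
    positivity

/-- Iterated derivatives of a dilated function, without differentiability hypothesis. -/
lemma iteratedDeriv_comp_mul_left' (h : ℝ → F) (c : ℝ) (k : ℕ) (z : ℝ) :
    iteratedDeriv k (fun z => h (c * z)) z = c ^ k • iteratedDeriv k h (c * z) := by
  induction k generalizing z with
  | zero => simp
  | succ k ih =>
    rw [iteratedDeriv_succ, iteratedDeriv_succ]
    have : iteratedDeriv k (fun z => h (c * z)) =
        fun z => c ^ k • iteratedDeriv k h (c * z) := by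
      funext w
      exact ih w
    rw [this, deriv_fun_const_smul_field, deriv_comp_mul_left, smul_smul, pow_succ]

/-- **Radial symbol lemma, pointwise form.**  If `h` is `C^n` on `(z₁, ∞)` and
`|h^{(k)}(z)| ≤ A z^{-k}` at `z = |x|^2 > z₁` for `k ≤ n` then
`|D^n (h ∘ |·|^2) (x)| ≤ n! A (2/|x|)^n`. -/
theorem norm_iteratedFDeriv_radial_le {h : ℝ → F} {z₁ : ℝ} {n : ℕ}
    (hh : ContDiffOn ℝ n h (Ioi z₁)) {x : E} (hx0 : x ≠ 0) (hx : z₁ < ‖x‖ ^ 2) {A : ℝ}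
    (hA : ∀ k ≤ n, ‖iteratedDeriv k h (‖x‖ ^ 2)‖ ≤ A * ((‖x‖ ^ 2) ^ k)⁻¹) :
    ‖iteratedFDeriv ℝ n (fun y : E => h (‖y‖ ^ 2)) x‖ ≤ n.factorial * A * (2 / ‖x‖) ^ n := by
  set ρ : ℝ := ‖x‖ with hρdef
  have hρ : 0 < ρ := norm_pos_iff.mpr hx0
  -- the rescaled function
  set g : ℝ → F := fun z => h (ρ ^ 2 * z) with hg
  set q : E → ℝ := fun y => (ρ ^ 2)⁻¹ • nsq y with hq
  have hcomp : (fun y : E => h (‖y‖ ^ 2)) = g ∘ q := by
    funext y
    simp only [hg, hq, Function.comp_apply, nsq, smul_eq_mul]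
    congr 1
    field_simp
  set t : Set ℝ := {z | z₁ < ρ ^ 2 * z} with ht
  have htopen : IsOpen t := isOpen_lt continuous_const (continuous_const.mul continuous_id)
  set s : Set E := {y | z₁ < ‖y‖ ^ 2} with hs
  have hsopen : IsOpen s := isOpen_lt continuous_const (by fun_prop)
  have hmaps : MapsTo q s t := by
    intro y hy
    simp only [ht, hq, nsq, smul_eq_mul, mem_ofPred_eq]
    have : ρ ^ 2 * ((ρ ^ 2)⁻¹ * ‖y‖ ^ 2) = ‖y‖ ^ 2 := by field_simp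
    rw [this]
    exact hy
  have hgC : ContDiffOn ℝ n g t := by
    refine hh.comp (f := fun z : ℝ => ρ ^ 2 * z) ?_ ?_
    · exact (contDiff_const.mul contDiff_id).contDiffOn
    · intro z hz
      exact hz
  have hqC : ContDiff ℝ n q := contDiff_const.mul contDiff_nsq
  have hxs : x ∈ s := hx
  have hqx : q x = 1 := by
    simp only [hq, nsq, smul_eq_mul]
    rw [← hρdef]
    field_simp
  have h1t : (1 : ℝ) ∈ t := by
    have := hmaps hxs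
    rwa [hqx] at this
  have key := norm_iteratedFDerivWithin_comp_le (𝕜 := ℝ) (n := n) (N := n) (x := x) hgC
    hqC.contDiffOn le_rfl htopen.uniqueDiffOn hsopen.uniqueDiffOn hmaps hxs (C := A)
    (D := 2 / ρ) ?_ ?_
  · rw [hcomp]
    rwa [iteratedFDerivWithin_of_isOpen n hsopen hxs] at key
  · intro i hi
    rw [hqx, norm_iteratedFDerivWithin_eq_norm_iteratedDerivWithin,
      iteratedDerivWithin_of_isOpen htopen h1t]
    have hi' : (i : ℕ∞ω) ≤ n := by exact_mod_cast hi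
    have hci : ContDiffOn ℝ i h (Ioi z₁) := hh.of_le hi'
    have hgi : iteratedDeriv i g 1 = (ρ ^ 2) ^ i • iteratedDeriv i h (ρ ^ 2 * 1) :=
      iteratedDeriv_comp_mul_left' h (ρ ^ 2) i 1
    rw [hgi, norm_smul, mul_one]
    have := hA i hi
    rw [Real.norm_of_nonneg (by positivity)]
    calc (ρ ^ 2) ^ i * ‖iteratedDeriv i h (ρ ^ 2)‖ ≤ (ρ ^ 2) ^ i * (A * ((ρ ^ 2) ^ i)⁻¹) := by
          gcongr
    _ = A := by field_simp
  · intro i h1 hi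
    rw [iteratedFDerivWithin_of_isOpen i hsopen hxs]
    exact norm_iteratedFDeriv_nsq_scaled hρ rfl i h1

/-- **Radial symbol lemma (RS2), z-form.**  If `h` is `C^n` on `(z₁, ∞)` and
`|h^{(k)}(z)| ≤ A z^{-δ/2-k}` for `z ≥ z₀ > z₁`, `k ≤ n`, then
`|D^j (h ∘ |·|^2) (x)| ≤ (2^j j!) A |x|^{-δ-j}` for `|x|^2 ≥ z₀`, `j ≤ n`. -/
theorem radial_symbol_z {h : ℝ → F} {z₁ z₀ δ A : ℝ} {n : ℕ} (hz₁ : 0 ≤ z₁) (hz : z₁ < z₀)
    (hh : ContDiffOn ℝ n h (Ioi z₁))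
    (hA : ∀ k ≤ n, ∀ z, z₀ ≤ z → ‖iteratedDeriv k h z‖ ≤ A * z ^ (-δ / 2 - k))
    {j : ℕ} (hj : j ≤ n) {x : E} (hx : z₀ ≤ ‖x‖ ^ 2) :
    ‖iteratedFDeriv ℝ j (fun y : E => h (‖y‖ ^ 2)) x‖ ≤
      (2 ^ j * j.factorial) * A * ‖x‖ ^ (-δ - j) := by
  have hpos : 0 < ‖x‖ ^ 2 := lt_of_lt_of_le (lt_of_le_of_lt hz₁ hz) hx
  have hx0 : x ≠ 0 := by
    rintro rfl
    simp at hpos
  have hρ : 0 < ‖x‖ := norm_pos_iff.mpr hx0
  have hj' : (j : ℕ∞ω) ≤ n := by exact_mod_cast hj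
  have := norm_iteratedFDeriv_radial_le (n := j) (hh.of_le hj') hx0 (lt_of_lt_of_le hz hx)
    (A := A * ‖x‖ ^ (-δ)) ?_
  · refine this.trans (le_of_eq ?_)
    rw [div_pow, Real.rpow_sub hρ, Real.rpow_natCast]
    field_simp
  · intro k hk
    refine (hA k (hk.trans hj) _ hx).trans (le_of_eq ?_)
    rw [Real.rpow_sub hpos, Real.rpow_natCast, ← Real.rpow_natCast ‖x‖ 2, ← Real.rpow_mul hρ.le]
    have : ((2 : ℕ) : ℝ) * (-δ / 2) = -δ := by push_cast; ring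
    rw [this]
    rw [div_eq_mul_inv]
    ring

/-- The composition of a function that is `C^n` on `[0,∞)` with `|x|^2` is `C^n`. -/
theorem contDiff_radial {h : ℝ → F} {n : ℕ∞ω} (hh : ContDiffOn ℝ n h (Ici 0)) :
    ContDiff ℝ n (fun y : E => h (‖y‖ ^ 2)) := by
  rw [← contDiffOn_univ]
  exact hh.comp (f := fun y : E => ‖y‖ ^ 2) (contDiff_norm_sq ℝ).contDiffOn
    (fun y _ => by simp only [mem_Ici]; positivity)

/-- **Radial symbol lemma (RS3), global form.** -/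
theorem radial_symbol_global [FiniteDimensional ℝ E] {h : ℝ → F} {z₀ δ A : ℝ} {n : ℕ}
    (hz : 0 < z₀) (hδ : 0 ≤ δ) (hh : ContDiffOn ℝ n h (Ici 0))
    (hA : ∀ k ≤ n, ∀ z, z₀ ≤ z → ‖iteratedDeriv k h z‖ ≤ A * z ^ (-δ / 2 - k)) :
    ContDiff ℝ n (fun y : E => h (‖y‖ ^ 2)) ∧
    ∃ C, 0 ≤ C ∧ ∀ j ≤ n, ∀ x : E,
      ‖iteratedFDeriv ℝ j (fun y : E => h (‖y‖ ^ 2)) x‖ ≤ C * (1 + ‖x‖) ^ (-δ - j) := by
  have hC : ContDiff ℝ n (fun y : E => h (‖y‖ ^ 2)) := contDiff_radial hh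
  refine ⟨hC, ?_⟩
  have hA0 : 0 ≤ A := by
    have h1 := hA 0 (Nat.zero_le _) z₀ le_rfl
    have h2 : 0 < z₀ ^ (-δ / 2 - ((0 : ℕ) : ℝ)) := Real.rpow_pos_of_pos hz _
    by_contra hneg
    push Not at hneg
    have h3 : A * z₀ ^ (-δ / 2 - ((0 : ℕ) : ℝ)) < 0 := mul_neg_of_neg_of_pos hneg h2
    linarith [norm_nonneg (iteratedDeriv 0 h z₀)]
  set r₀ : ℝ := max 1 (Real.sqrt z₀) with hr₀
  have hr₀1 : 1 ≤ r₀ := le_max_left _ _
  -- bounds on the ball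
  have hball : ∀ j : ℕ, ∃ B, 0 ≤ B ∧ (j ≤ n → ∀ x : E, ‖x‖ ≤ r₀ →
      ‖iteratedFDeriv ℝ j (fun y : E => h (‖y‖ ^ 2)) x‖ ≤ B) := by
    intro j
    by_cases hj : j ≤ n
    · have hcont : Continuous (iteratedFDeriv ℝ j (fun y : E => h (‖y‖ ^ 2))) :=
        hC.continuous_iteratedFDeriv (by exact_mod_cast hj)
      obtain ⟨B, hB⟩ := (isCompact_closedBall (0 : E) r₀).exists_bound_of_continuousOn
        hcont.continuousOn
      refine ⟨max B 0, le_max_right _ _, fun _ x hx => ?_⟩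
      exact (hB x (by simpa using hx)).trans (le_max_left _ _)
    · exact ⟨0, le_rfl, fun h' => absurd h' hj⟩
  choose B hB0 hB using hball
  set S : ℝ := ∑ j ∈ Finset.range (n + 1), (B j * (1 + r₀) ^ (δ + j) +
    (2 ^ j * j.factorial) * A * 2 ^ (δ + j)) with hS
  have hterm : ∀ j : ℕ, 0 ≤ B j * (1 + r₀) ^ (δ + j) + (2 ^ j * j.factorial) * A * 2 ^ (δ + j) := by
    intro j
    have := hB0 j
    positivity
  have hS0 : 0 ≤ S := Finset.sum_nonneg fun j _ => hterm j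
  refine ⟨S, hS0, fun j hj x => ?_⟩
  have hjS : B j * (1 + r₀) ^ (δ + j) + (2 ^ j * j.factorial) * A * 2 ^ (δ + j) ≤ S :=
    Finset.single_le_sum (f := fun j : ℕ => B j * (1 + r₀) ^ (δ + j) +
      (2 ^ j * j.factorial) * A * 2 ^ (δ + j)) (fun i _ => hterm i)
      (Finset.mem_range.mpr (by omega))
  have hx1 : 0 < 1 + ‖x‖ := by positivity
  by_cases hx : ‖x‖ ≤ r₀
  · have h1 := hB j hj x hx
    have h2 : 1 ≤ (1 + r₀) ^ (δ + (j : ℝ)) * (1 + ‖x‖) ^ (-δ - (j : ℝ)) := by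
      have h3 : (1 + ‖x‖) ^ (-δ - (j : ℝ)) = ((1 + ‖x‖) ^ (δ + (j : ℝ)))⁻¹ := by
        rw [← Real.rpow_neg hx1.le]
        congr 1
        ring
      rw [h3, ← div_eq_mul_inv, one_le_div (by positivity)]
      apply Real.rpow_le_rpow hx1.le (by linarith) (by positivity)
    calc ‖iteratedFDeriv ℝ j (fun y : E => h (‖y‖ ^ 2)) x‖ ≤ B j := h1
      _ ≤ B j * ((1 + r₀) ^ (δ + (j : ℝ)) * (1 + ‖x‖) ^ (-δ - (j : ℝ))) :=
          le_mul_of_one_le_right (hB0 j) h2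
      _ = (B j * (1 + r₀) ^ (δ + (j : ℝ))) * (1 + ‖x‖) ^ (-δ - (j : ℝ)) := by ring
      _ ≤ S * (1 + ‖x‖) ^ (-δ - (j : ℝ)) := by
          have h5 : B j * (1 + r₀) ^ (δ + (j : ℝ)) ≤ S := by
            have : 0 ≤ (2 ^ j * (j.factorial : ℝ)) * A * 2 ^ (δ + (j : ℝ)) := by positivity
            linarith
          gcongr
  · push Not at hx
    have hx1' : 1 ≤ ‖x‖ := hr₀1.trans hx.le
    have hxz : z₀ ≤ ‖x‖ ^ 2 := by
      have h1 : Real.sqrt z₀ ≤ ‖x‖ := (le_max_right _ _).trans hx.le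
      calc z₀ = Real.sqrt z₀ ^ 2 := (Real.sq_sqrt hz.le).symm
        _ ≤ ‖x‖ ^ 2 := by gcongr
    have hio : Ioi (0 : ℝ) ⊆ Ici 0 := Ioi_subset_Ici_self
    have h1 := radial_symbol_z (E := E) le_rfl hz (hh.mono hio) hA hj hxz
    have h2 : ‖x‖ ^ (-δ - (j : ℝ)) ≤ 2 ^ (δ + (j : ℝ)) * (1 + ‖x‖) ^ (-δ - (j : ℝ)) := by
      have h3 : (1 + ‖x‖) ^ (-δ - (j : ℝ)) = ((1 + ‖x‖) ^ (δ + (j : ℝ)))⁻¹ := by
        rw [← Real.rpow_neg hx1.le]
        congr 1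
        ring
      have h4 : ‖x‖ ^ (-δ - (j : ℝ)) = (‖x‖ ^ (δ + (j : ℝ)))⁻¹ := by
        rw [← Real.rpow_neg (by positivity)]
        congr 1
        ring
      rw [h3, h4, ← div_eq_mul_inv, inv_eq_one_div, div_le_div_iff₀ (by positivity) (by positivity),
        one_mul, ← Real.mul_rpow (by positivity) (by positivity)]
      apply Real.rpow_le_rpow hx1.le (by linarith) (by positivity)
    calc ‖iteratedFDeriv ℝ j (fun y : E => h (‖y‖ ^ 2)) x‖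
        ≤ (2 ^ j * j.factorial) * A * ‖x‖ ^ (-δ - (j : ℝ)) := h1
      _ ≤ (2 ^ j * j.factorial) * A * (2 ^ (δ + (j : ℝ)) * (1 + ‖x‖) ^ (-δ - (j : ℝ))) := by
          gcongr
      _ = ((2 ^ j * j.factorial) * A * 2 ^ (δ + (j : ℝ))) * (1 + ‖x‖) ^ (-δ - (j : ℝ)) := by ring
      _ ≤ S * (1 + ‖x‖) ^ (-δ - (j : ℝ)) := by
          have h5 : (2 ^ j * (j.factorial : ℝ)) * A * 2 ^ (δ + (j : ℝ)) ≤ S := by
            have : 0 ≤ B j * (1 + r₀) ^ (δ + (j : ℝ)) := by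
              have := hB0 j
              positivity
            linarith
          gcongr

end Vale.Agent.P139.H730
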