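import Vale.Agent.P139.H730.RS1

/-!
# Radial symbol lemma in the variable `r = |x|`, and with a dilated variable `z = c |x|^2`
-/

open Set
open scoped ContDiff

namespace Vale.Agent.P139.H730

variable {E : Type*} [NormedAddCommGroup E] [InnerProductSpace ℝ E]
variable {F : Type*} [NormedAddCommGroup F] [NormedSpace ℝ F]

/-- A constant dominating the derivatives of `sqrt` at `1`. -/
noncomputable def sqrtConst (n : ℕ) : ℝ := 1 + ∑ i ∈ Finset.range (n + 1), ‖iteratedDeriv i Real.sqrt 1‖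

lemma one_le_sqrtConst (n : ℕ) : 1 ≤ sqrtConst n := by
  have : 0 ≤ ∑ i ∈ Finset.range (n + 1), ‖iteratedDeriv i Real.sqrt 1‖ :=
    Finset.sum_nonneg fun i _ => norm_nonneg _
  unfold sqrtConst
  linarith

lemma iteratedDeriv_sqrt_le (n i : ℕ) (h1 : 1 ≤ i) (hi : i ≤ n) :
    ‖iteratedDeriv i Real.sqrt 1‖ ≤ sqrtConst n ^ i := by
  have h2 : ‖iteratedDeriv i Real.sqrt 1‖ ≤ sqrtConst n := by
    have := Finset.single_le_sum (f := fun i : ℕ => ‖iteratedDeriv i Real.sqrt 1‖)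
      (fun i _ => norm_nonneg _) (Finset.mem_range.mpr (show i < n + 1 by omega))
    unfold sqrtConst
    linarith
  refine h2.trans ?_
  exact le_self_pow₀ (one_le_sqrtConst n) (by omega)

/-- Derivatives of `u ∘ sqrt`. -/
theorem norm_iteratedDeriv_comp_sqrt_le {u : ℝ → F} {r₁ : ℝ} {n : ℕ}
    (hu : ContDiffOn ℝ n u (Ioi r₁)) {ρ : ℝ} (hρ : 0 < ρ) (hr₁ : r₁ < ρ) {A : ℝ}
    (hA : ∀ k ≤ n, ‖iteratedDeriv k u ρ‖ ≤ A * (ρ ^ k)⁻¹) :
    ‖iteratedDeriv n (fun z : ℝ => u (Real.sqrt z)) (ρ ^ 2)‖ ≤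
      n.factorial * A * sqrtConst n ^ n * ((ρ ^ 2) ^ n)⁻¹ := by
  set g : ℝ → F := fun s => u (ρ * s) with hg
  have hcomp : (fun z : ℝ => u (Real.sqrt (ρ ^ 2 * z))) = g ∘ Real.sqrt := by
    funext z
    simp only [hg, Function.comp_apply]
    rw [Real.sqrt_mul (by positivity), Real.sqrt_sq hρ.le]
  set t : Set ℝ := {s | r₁ < ρ * s} with ht
  have htopen : IsOpen t := isOpen_lt continuous_const (continuous_const.mul continuous_id)
  set S : Set ℝ := {z | 0 < z ∧ r₁ < ρ * Real.sqrt z} with hS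
  have hSopen : IsOpen S :=
    (isOpen_lt continuous_const continuous_id).inter
      (isOpen_lt continuous_const (continuous_const.mul Real.continuous_sqrt))
  have hmaps : MapsTo Real.sqrt S t := fun z hz => hz.2
  have h1S : (1 : ℝ) ∈ S := by
    refine ⟨one_pos, ?_⟩
    rw [Real.sqrt_one, mul_one]
    exact hr₁
  have h1t : (1 : ℝ) ∈ t := by
    have := hmaps h1S
    rwa [Real.sqrt_one] at this
  have hgC : ContDiffOn ℝ n g t := by
    refine hu.comp (f := fun z : ℝ => ρ * z) ?_ ?_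
    · exact (contDiff_const.mul contDiff_id).contDiffOn
    · intro z hz
      exact hz
  have hsC : ContDiffOn ℝ n Real.sqrt S := by
    intro z hz
    exact (Real.contDiffAt_sqrt (ne_of_gt hz.1)).contDiffWithinAt
  have key := norm_iteratedFDerivWithin_comp_le (𝕜 := ℝ) (n := n) (N := n) (x := (1 : ℝ)) hgC
    hsC le_rfl htopen.uniqueDiffOn hSopen.uniqueDiffOn hmaps h1S (C := A)
    (D := sqrtConst n) ?_ ?_
  · have e1 : iteratedDeriv n (fun z : ℝ => u (Real.sqrt (ρ ^ 2 * z))) 1 =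
        (ρ ^ 2) ^ n • iteratedDeriv n (fun z : ℝ => u (Real.sqrt z)) (ρ ^ 2 * 1) :=
      iteratedDeriv_comp_mul_left' (fun z : ℝ => u (Real.sqrt z)) (ρ ^ 2) n 1
    rw [hcomp] at e1
    rw [norm_iteratedFDerivWithin_eq_norm_iteratedDerivWithin,
      iteratedDerivWithin_of_isOpen hSopen h1S, e1, norm_smul, mul_one,
      Real.norm_of_nonneg (by positivity)] at key
    rw [← div_eq_mul_inv, le_div_iff₀ (by positivity), mul_comm]
    exact key
  · intro i hi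
    rw [Real.sqrt_one, norm_iteratedFDerivWithin_eq_norm_iteratedDerivWithin,
      iteratedDerivWithin_of_isOpen htopen h1t]
    have hgi : iteratedDeriv i g 1 = ρ ^ i • iteratedDeriv i u (ρ * 1) :=
      iteratedDeriv_comp_mul_left' u ρ i 1
    rw [hgi, norm_smul, mul_one, Real.norm_of_nonneg (by positivity)]
    calc ρ ^ i * ‖iteratedDeriv i u ρ‖ ≤ ρ ^ i * (A * (ρ ^ i)⁻¹) := by
          gcongr
          exact hA i hi
    _ = A := by field_simp
  · intro i h1 hi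
    rw [norm_iteratedFDerivWithin_eq_norm_iteratedDerivWithin,
      iteratedDerivWithin_of_isOpen hSopen h1S]
    exact iteratedDeriv_sqrt_le n i h1 hi

/-- The constant of the `r`-form. -/
noncomputable def rsConst (n : ℕ) : ℝ := ∑ j ∈ Finset.range (n + 1), j.factorial * sqrtConst j ^ j

lemma rsConst_nonneg (n : ℕ) : 0 ≤ rsConst n :=
  Finset.sum_nonneg fun j _ => by
    have := one_le_sqrtConst j
    positivity

/-- From symbol bounds of `u(r)` to symbol bounds of `h(z) = u(√z)`. -/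
theorem symbol_comp_sqrt {u : ℝ → F} {r₁ r₀ δ A : ℝ} {n : ℕ} (hr₁ : 0 ≤ r₁) (hr : r₁ < r₀)
    (hu : ContDiffOn ℝ n u (Ioi r₁))
    (hA : ∀ k ≤ n, ∀ r, r₀ ≤ r → ‖iteratedDeriv k u r‖ ≤ A * r ^ (-δ - k)) :
    ContDiffOn ℝ n (fun z : ℝ => u (Real.sqrt z)) (Ioi (r₁ ^ 2)) ∧
    ∀ k ≤ n, ∀ z, r₀ ^ 2 ≤ z →
      ‖iteratedDeriv k (fun z : ℝ => u (Real.sqrt z)) z‖ ≤ (rsConst n * A) * z ^ (-δ / 2 - k) := by
  have hr₀ : 0 < r₀ := lt_of_le_of_lt hr₁ hr
  have hA0 : 0 ≤ A := by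
    have h1 := hA 0 (Nat.zero_le _) r₀ le_rfl
    have h2 : 0 < r₀ ^ (-δ - ((0 : ℕ) : ℝ)) := Real.rpow_pos_of_pos hr₀ _
    by_contra hneg
    push Not at hneg
    have h3 : A * r₀ ^ (-δ - ((0 : ℕ) : ℝ)) < 0 := mul_neg_of_neg_of_pos hneg h2
    linarith [norm_nonneg (iteratedDeriv 0 u r₀)]
  constructor
  · refine hu.comp (f := Real.sqrt) ?_ ?_
    · intro z hz
      have hz' : r₁ ^ 2 < z := hz
      have : z ≠ 0 := by
        have := sq_nonneg r₁
        intro h0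
        linarith
      exact (Real.contDiffAt_sqrt this).contDiffWithinAt
    · intro z hz
      exact Real.lt_sqrt_of_sq_lt hz
  · intro k hk z hz
    have hzpos : 0 < z := lt_of_lt_of_le (by positivity) hz
    set ρ := Real.sqrt z with hρ
    have hρpos : 0 < ρ := Real.sqrt_pos.mpr hzpos
    have hzρ : z = ρ ^ 2 := (Real.sq_sqrt hzpos.le).symm
    have hr₀ρ : r₀ ≤ ρ := Real.le_sqrt_of_sq_le hz
    have hk' : (k : ℕ∞ω) ≤ n := by exact_mod_cast hk
    have h1 := norm_iteratedDeriv_comp_sqrt_le (n := k) (hu.of_le hk') hρpos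
      (lt_of_lt_of_le hr hr₀ρ) (A := A * ρ ^ (-δ)) (by
        intro i hi
        refine (hA i (hi.trans hk) ρ hr₀ρ).trans (le_of_eq ?_)
        rw [Real.rpow_sub hρpos, Real.rpow_natCast, div_eq_mul_inv]
        ring)
    rw [hzρ]
    refine h1.trans ?_
    have e1 : (ρ ^ 2) ^ (-δ / 2 - (k : ℝ)) = ρ ^ (-δ) * ((ρ ^ 2) ^ k)⁻¹ := by
      rw [Real.rpow_sub (by positivity), Real.rpow_natCast, ← Real.rpow_natCast ρ 2,
        ← Real.rpow_mul hρpos.le, div_eq_mul_inv]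
      congr 2
      push_cast
      ring
    rw [e1]
    have h3 : (k.factorial : ℝ) * sqrtConst k ^ k ≤ rsConst n :=
      Finset.single_le_sum (f := fun j : ℕ => (j.factorial : ℝ) * sqrtConst j ^ j)
        (fun j _ => by have := one_le_sqrtConst j; positivity)
        (Finset.mem_range.mpr (show k < n + 1 by omega))
    calc (k.factorial : ℝ) * (A * ρ ^ (-δ)) * sqrtConst k ^ k * ((ρ ^ 2) ^ k)⁻¹
        = ((k.factorial : ℝ) * sqrtConst k ^ k) * (A * (ρ ^ (-δ) * ((ρ ^ 2) ^ k)⁻¹)) := by ring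
      _ ≤ rsConst n * (A * (ρ ^ (-δ) * ((ρ ^ 2) ^ k)⁻¹)) := by gcongr
      _ = rsConst n * A * (ρ ^ (-δ) * ((ρ ^ 2) ^ k)⁻¹) := by ring

/-- **Radial symbol lemma (RS2), r-form.**  If `u` is `C^n` on `(r₁, ∞)` and
`|u^{(k)}(r)| ≤ A r^{-δ-k}` for `r ≥ r₀ > r₁ ≥ 0`, `k ≤ n`, then
`|D^j (u ∘ |·|) (x)| ≤ C_n A |x|^{-δ-j}` for `|x| ≥ r₀`, `j ≤ n`. -/
theorem radial_symbol_r {u : ℝ → F} {r₁ r₀ δ A : ℝ} {n : ℕ} (hr₁ : 0 ≤ r₁) (hr : r₁ < r₀)
    (hu : ContDiffOn ℝ n u (Ioi r₁))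
    (hA : ∀ k ≤ n, ∀ r, r₀ ≤ r → ‖iteratedDeriv k u r‖ ≤ A * r ^ (-δ - k))
    {j : ℕ} (hj : j ≤ n) {x : E} (hx : r₀ ≤ ‖x‖) :
    ‖iteratedFDeriv ℝ j (fun y : E => u ‖y‖) x‖ ≤
      (2 ^ j * j.factorial * rsConst n) * A * ‖x‖ ^ (-δ - j) := by
  obtain ⟨h1, h2⟩ := symbol_comp_sqrt hr₁ hr hu hA
  have hr₀ : 0 ≤ r₀ := hr₁.trans hr.le
  have h3 := radial_symbol_z (E := E) (j := j) (sq_nonneg r₁) (by gcongr) h1 h2 hj
    (x := x) (by gcongr)
  have e : (fun y : E => u ‖y‖) = fun y : E => u (Real.sqrt (‖y‖ ^ 2)) := by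
    funext y
    rw [Real.sqrt_sq (norm_nonneg _)]
  rw [e]
  refine h3.trans (le_of_eq ?_)
  ring

/-- Dilation of a one-variable symbol: `z ↦ h (c z)`. -/
theorem symbol_dilation {h : ℝ → F} {z₀ δ A c : ℝ} {n : ℕ} (hc : 0 < c) (hz₀ : 0 < z₀)
    (hA : ∀ k ≤ n, ∀ z, z₀ ≤ z → ‖iteratedDeriv k h z‖ ≤ A * z ^ (-δ / 2 - k)) :
    ∀ k ≤ n, ∀ z, z₀ / c ≤ z →
      ‖iteratedDeriv k (fun z => h (c * z)) z‖ ≤ (A * c ^ (-δ / 2)) * z ^ (-δ / 2 - k) := by
  intro k hk z hz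
  have hzpos : 0 < z := lt_of_lt_of_le (by positivity) hz
  have hz' : z₀ ≤ c * z := by
    rw [div_le_iff₀ hc] at hz
    linarith
  rw [iteratedDeriv_comp_mul_left', norm_smul, Real.norm_of_nonneg (by positivity)]
  calc c ^ k * ‖iteratedDeriv k h (c * z)‖ ≤ c ^ k * (A * (c * z) ^ (-δ / 2 - (k : ℝ))) := by
        gcongr
        exact hA k hk _ hz'
    _ = (A * c ^ (-δ / 2)) * z ^ (-δ / 2 - (k : ℝ)) := by
        rw [Real.mul_rpow hc.le hzpos.le, Real.rpow_sub hc, Real.rpow_natCast]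
        field_simp

/-- Products of symbols of one variable. -/
theorem symbol_mul {f g : ℝ → ℂ} {z₁ z₀ : ℝ} {α β A B : ℝ} {n : ℕ} (hz₁ : 0 ≤ z₁)
    (hz10 : z₁ < z₀)
    (hf : ContDiffOn ℝ n f (Ioi z₁)) (hg : ContDiffOn ℝ n g (Ioi z₁))
    (hA : ∀ k ≤ n, ∀ z, z₀ ≤ z → ‖iteratedDeriv k f z‖ ≤ A * z ^ (α - k))
    (hB : ∀ k ≤ n, ∀ z, z₀ ≤ z → ‖iteratedDeriv k g z‖ ≤ B * z ^ (β - k)) :
    ∀ k ≤ n, ∀ z, z₀ ≤ z →
      ‖iteratedDeriv k (fun z => f z * g z) z‖ ≤ (2 ^ k * A * B) * z ^ (α + β - k) := by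
  intro k hk z hz
  have hz₀ : 0 < z₀ := lt_of_le_of_lt hz₁ hz10
  have hzpos : 0 < z := lt_of_lt_of_le hz₀ hz
  have hzmem : z ∈ Ioi z₁ := lt_of_lt_of_le hz10 hz
  have hk' : (k : ℕ∞ω) ≤ n := by exact_mod_cast hk
  have h1 := norm_iteratedFDerivWithin_mul_le (𝕜 := ℝ) (N := n) hf hg isOpen_Ioi.uniqueDiffOn hzmem
    (n := k) (by exact_mod_cast hk')
  rw [norm_iteratedFDerivWithin_eq_norm_iteratedDerivWithin,
    iteratedDerivWithin_of_isOpen isOpen_Ioi hzmem] at h1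
  refine h1.trans ?_
  have h2 : ∀ i ∈ Finset.range (k + 1),
      (k.choose i : ℝ) * ‖iteratedFDerivWithin ℝ i f (Ioi z₁) z‖ *
        ‖iteratedFDerivWithin ℝ (k - i) g (Ioi z₁) z‖ ≤
      (k.choose i : ℝ) * (A * B * z ^ (α + β - (k : ℝ))) := by
    intro i hi
    have hik : i ≤ k := by
      have := Finset.mem_range.mp hi
      omega
    rw [norm_iteratedFDerivWithin_eq_norm_iteratedDerivWithin,
      norm_iteratedFDerivWithin_eq_norm_iteratedDerivWithin,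
      iteratedDerivWithin_of_isOpen isOpen_Ioi hzmem,
      iteratedDerivWithin_of_isOpen isOpen_Ioi hzmem]
    have ha := hA i (hik.trans hk) z hz
    have hb := hB (k - i) ((Nat.sub_le _ _).trans hk) z hz
    have e : (A * z ^ (α - (i : ℝ))) * (B * z ^ (β - ((k - i : ℕ) : ℝ))) =
        A * B * z ^ (α + β - (k : ℝ)) := by
      have : α + β - (k : ℝ) = (α - (i : ℝ)) + (β - ((k - i : ℕ) : ℝ)) := by
        rw [Nat.cast_sub hik]
        ring
      rw [this, Real.rpow_add hzpos]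
      ring
    have : ‖iteratedDeriv i f z‖ * ‖iteratedDeriv (k - i) g z‖ ≤
        A * B * z ^ (α + β - (k : ℝ)) := by
      rw [← e]
      exact mul_le_mul ha hb (norm_nonneg _) ((norm_nonneg _).trans ha)
    calc (k.choose i : ℝ) * ‖iteratedDeriv i f z‖ * ‖iteratedDeriv (k - i) g z‖
        = (k.choose i : ℝ) * (‖iteratedDeriv i f z‖ * ‖iteratedDeriv (k - i) g z‖) := by ring
      _ ≤ _ := by gcongr
  refine (Finset.sum_le_sum h2).trans (le_of_eq ?_)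
  rw [← Finset.sum_mul]
  have : (∑ i ∈ Finset.range (k + 1), (k.choose i : ℝ)) = 2 ^ k := by
    exact_mod_cast Nat.sum_range_choose k
  rw [this]
  ring

end Vale.Agent.P139.H730
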