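import Vale.Agent.P139.H730.Quot
import Vale.Agent.P139.H201.Wiener4
import Vale.Agent.P139.BU.WX

/-!
# Symbols, potentials and symmetry modes as elements of the weighted Wiener spaces

`xel κ s f : XK d s κ` is the element with `ev (xel κ s f) = f` whenever there is one.
-/

open MeasureTheory Real FourierTransform Filter Topology
open scoped ComplexConjugate ContDiff

namespace Vale.Agent.P139.H730

open Vale.Agent.P139.BU Vale.Agent.P139.H201

variable {d : ℕ}

/-! ### Products of symbols -/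

lemma Symb.mul {α β : ℝ} {f g : E d → ℂ} (hf : Symb α f) (hg : Symb β g) :
    Symb (α + β) (fun x => f x * g x) := by
  refine ⟨hf.1.mul hg.1, fun k => ?_⟩
  choose A hA0 hA using fun i => hf.exists_nonneg i
  choose B hB0 hB using fun i => hg.exists_nonneg i
  refine ⟨∑ i ∈ Finset.range (k + 1), (k.choose i : ℝ) * (A i * B (k - i)), fun x => ?_⟩
  have hx : (0 : ℝ) < 1 + ‖x‖ := by positivity
  have h1 := norm_iteratedFDeriv_mul_le (𝕜 := ℝ) (n := k) hf.1 hg.1 x
    (by exact_mod_cast le_top)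
  refine h1.trans ?_
  rw [Finset.sum_mul]
  refine Finset.sum_le_sum fun i hi => ?_
  have hik : i ≤ k := Nat.lt_succ_iff.mp (Finset.mem_range.mp hi)
  have e : (1 + ‖x‖) ^ (-(α + β) - (k : ℝ))
      = (1 + ‖x‖) ^ (-α - (i : ℝ)) * (1 + ‖x‖) ^ (-β - ((k - i : ℕ) : ℝ)) := by
    rw [← Real.rpow_add hx]
    congr 1
    rw [Nat.cast_sub hik]
    ring
  calc (k.choose i : ℝ) * ‖iteratedFDeriv ℝ i f x‖ * ‖iteratedFDeriv ℝ (k - i) g x‖
      ≤ (k.choose i : ℝ) * (A i * (1 + ‖x‖) ^ (-α - (i : ℝ)))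
        * (B (k - i) * (1 + ‖x‖) ^ (-β - ((k - i : ℕ) : ℝ))) := by
        have h2 := hA i x
        have h3 := hB (k - i) x
        have h4 : 0 ≤ A i * (1 + ‖x‖) ^ (-α - (i : ℝ)) := mul_nonneg (hA0 i) (by positivity)
        gcongr
    _ = _ := by rw [e]; ring

lemma symb_one : Symb 0 (fun _ : E d => (1 : ℂ)) := by
  refine ⟨contDiff_const, fun k => ⟨1, fun x => ?_⟩⟩
  rcases k with _ | k
  · simp
  · have : iteratedFDeriv ℝ (k + 1) (fun _ : E d => (1 : ℂ)) x = 0 := by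
      rw [iteratedFDeriv_const_of_ne (by omega)]
      rfl
    rw [this, norm_zero]
    positivity

lemma Symb.pow {α : ℝ} {f : E d → ℂ} (hf : Symb α f) (n : ℕ) :
    Symb (n * α) (fun x => f x ^ n) := by
  induction n with
  | zero => simpa using symb_one
  | succ n ih =>
    have := ih.mul hf
    convert this using 1
    · push_cast; ring
    · funext x; rw [pow_succ]

variable {m : ℕ} {w : ℝ} {Q : E d → ℂ}

lemma symb_W1 (hm : 1 ≤ m) (hQ : IsProfile d m w Q) : Symb 2 (fun x => W1 m (Q x)) := by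
  have h := ((IsProfile.symb hQ).mul (IsProfile.symb hQ).conj).pow m
  have e : (m : ℝ) * (2 * aa m + 2 * aa m) = 2 := by
    have : (m : ℝ) ≠ 0 := by positivity
    unfold aa; field_simp; norm_num
  rw [e] at h
  exact h

lemma symb_W2 (hm : 1 ≤ m) (hQ : IsProfile d m w Q) : Symb 2 (fun x => W2 m (Q x)) := by
  have h := ((IsProfile.symb hQ).pow (m + 1)).mul ((IsProfile.symb hQ).conj.pow (m - 1))
  have e : ((m + 1 : ℕ) : ℝ) * (2 * aa m) + ((m - 1 : ℕ) : ℝ) * (2 * aa m) = 2 := by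
    have : (m : ℝ) ≠ 0 := by positivity
    rw [Nat.cast_sub hm]
    unfold aa; push_cast; field_simp; ring
  rw [e] at h
  exact h

/-! ### Elements of the space -/

lemma wt_le_of {κ : ℝ} (hκ : 0 ≤ κ) (s : ℕ) (ξ : E d) : wt κ s ξ ≤ (1 + κ) * (1 + ‖ξ‖ ^ s) := by
  have : 0 ≤ ‖ξ‖ ^ s := by positivity
  unfold wt
  nlinarith

lemma exists_of_wienerRep {κ : ℝ} (hκ : 0 ≤ κ) {s : ℕ} {f : E d → ℂ} {C : ℝ}
    (h : WienerRep s f C) : ∃ v : XK d s κ, ∀ y, ev v y = f y := by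
  obtain ⟨φ, h1, h2, h3, h4⟩ := h
  have h5 : Integrable fun ξ => wt κ s ξ * ‖φ ξ‖ := by
    refine (h2.const_mul (1 + κ)).mono
      ((continuous_wt κ s).aestronglyMeasurable.mul h1.1.norm) (Eventually.of_forall fun ξ => ?_)
    have hw := wt_pos hκ s ξ
    rw [Real.norm_of_nonneg (by positivity), Real.norm_of_nonneg (by positivity), ← mul_assoc]
    exact mul_le_mul_of_nonneg_right (wt_le_of hκ s ξ) (norm_nonneg _)
  obtain ⟨v, -, hv, -⟩ := exists_ev (s := s) hκ h1.1 h5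
  exact ⟨v, fun y => by rw [hv y, h3 y]⟩

lemma Symb.exists_ev {δ : ℝ} (hδ : 0 < δ) {f : E d → ℂ} (hf : Symb δ f) {κ : ℝ} (hκ : 0 ≤ κ)
    (s : ℕ) : ∃ v : XK d s κ, ∀ y, ev v y = f y := by
  obtain ⟨C, hC, H⟩ := WienerRep.symbol (E d) ℂ s hδ
  choose A hA0 hA using fun i => hf.exists_nonneg i
  set A' : ℝ := ∑ i ∈ Finset.range (nd (E d) s + 1), A i with hA'
  have hA'0 : 0 ≤ A' := Finset.sum_nonneg fun i _ => hA0 i
  have h := H f A' hA'0 (hf.1.of_le (by exact_mod_cast le_top)) (by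
    intro j hj x
    refine (hA j x).trans (mul_le_mul_of_nonneg_right ?_ (by positivity))
    exact Finset.single_le_sum (f := A) (fun i _ => hA0 i)
      (Finset.mem_range.2 (Nat.lt_succ_iff.2 hj)))
  exact exists_of_wienerRep hκ h

open Classical in
/-- The element of `XK d s κ` representing the function `f` (junk if there is none). -/
noncomputable def xel (κ : ℝ) (s : ℕ) (f : E d → ℂ) : XK d s κ :=
  if h : ∃ v : XK d s κ, ∀ y, ev v y = f y then h.choose else 0

lemma ev_xel_of {κ : ℝ} {s : ℕ} {f : E d → ℂ} (h : ∃ v : XK d s κ, ∀ y, ev v y = f y) (y : E d) :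
    ev (xel κ s f) y = f y := by
  unfold xel
  rw [dif_pos h]
  exact h.choose_spec y

lemma ev_xel {κ : ℝ} (hκ : 0 ≤ κ) (s : ℕ) {δ : ℝ} (hδ : 0 < δ) {f : E d → ℂ} (hf : Symb δ f)
    (y : E d) : ev (xel κ s f) y = f y :=
  ev_xel_of (hf.exists_ev hδ hκ s) y

end Vale.Agent.P139.H730
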