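import Vale.Agent.P139.H730.Memb
import Vale.Agent.P139.H605.Step1Def

/-!
# The symmetry modes as elements of the pair space
-/

open MeasureTheory Real FourierTransform Filter Topology
open scoped ComplexConjugate ContDiff

namespace Vale.Agent.P139.H730

open Vale.Agent.P139.BU Vale.Agent.P139.H201

variable {d : ℕ}

/-- Index set of the symmetry modes: translations, phase (`false`), time (`true`). -/
abbrev MI (d : ℕ) : Type := Fin d ⊕ Bool

/-- The symmetry modes. -/
noncomputable def mfun (m : ℕ) (w : ℝ) (Q : E d → ℂ) : MI d → E d → ℂ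
  | Sum.inl j => pd j Q
  | Sum.inr false => phaseMode Q
  | Sum.inr true => timeMode m w Q

/-- The eigenvalues of the symmetry modes. -/
noncomputable def mlam : MI d → ℝ
  | Sum.inl _ => 1 / 2
  | Sum.inr false => 0
  | Sum.inr true => 1

lemma mlam_nonneg (i : MI d) : 0 ≤ mlam i := by
  rcases i with j | b
  · simp [mlam]
  · cases b <;> simp [mlam]

variable {m : ℕ} {w : ℝ} {Q : E d → ℂ} {κ : ℝ} {s : ℕ}

lemma symb_mfun (hQ : IsProfile d m w Q) (i : MI d) : Symb (2 * aa m) (mfun m w Q i) := by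
  rcases i with j | b
  · exact (symb_pd hQ j).mono (by linarith)
  · cases b
    · exact symb_phaseMode hQ
    · exact symb_timeMode hQ

lemma aa_pos (hm : 1 ≤ m) : 0 < aa m := by
  have : (1 : ℝ) ≤ m := by exact_mod_cast hm
  unfold aa
  positivity

/-- The mode pairs. -/
noncomputable def mvec (hκ : 0 ≤ κ) (s m : ℕ) (w : ℝ) (Q : E d → ℂ) (i : MI d) :
    XK d s κ × XK d s κ :=
  (xel κ s (mfun m w Q i), starX hκ (xel κ s (mfun m w Q i)))

lemma JX_mvec (hκ : 0 ≤ κ) (i : MI d) : JX hκ (mvec hκ s m w Q i) = mvec hκ s m w Q i := by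
  unfold mvec
  rw [JX_apply, starX_starX]

lemma ev_mvec_fst (hκ : 0 ≤ κ) (hm : 1 ≤ m) (hQ : IsProfile d m w Q) (i : MI d) (y : E d) :
    ev (mvec hκ s m w Q i).1 y = mfun m w Q i y :=
  ev_xel hκ s (by have := aa_pos hm; positivity) (symb_mfun hQ i) y

lemma ev_mvec_snd (hκ : 0 ≤ κ) (hm : 1 ≤ m) (hQ : IsProfile d m w Q) (i : MI d) (y : E d) :
    ev (mvec hκ s m w Q i).2 y = conj (mfun m w Q i y) := by
  unfold mvec
  rw [ev_starX]
  congr 1
  exact ev_mvec_fst (s := s) hκ hm hQ i y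

lemma LL1_mfun (hm : 1 ≤ m) (hQ : IsProfile d m w Q) (i : MI d) (y : E d) :
    LL1 m w Q (mfun m w Q i) (fun y => conj (mfun m w Q i y)) y
      = ((mlam i : ℝ) : ℂ) * mfun m w Q i y := by
  rcases i with j | b
  · have := LL1_pd hQ j y
    simp only [mfun, mlam]
    rw [this]; push_cast; ring
  · cases b
    · have := LL1_phaseMode hQ y
      simp only [mfun, mlam]
      rw [this]; push_cast; ring
    · have := LL1_timeMode hm hQ y
      simp only [mfun, mlam]
      rw [this]; push_cast; ring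

lemma LL2_mfun (hm : 1 ≤ m) (hQ : IsProfile d m w Q) (i : MI d) (y : E d) :
    LL2 m w Q (mfun m w Q i) (fun y => conj (mfun m w Q i y)) y
      = ((mlam i : ℝ) : ℂ) * conj (mfun m w Q i y) := by
  rcases i with j | b
  · have := LL2_pd hQ j y
    simp only [mfun, mlam]
    rw [this]; push_cast; ring
  · cases b
    · have := LL2_phaseMode hQ y
      simp only [mfun, mlam]
      rw [this]; push_cast; ring
    · have := LL2_timeMode hm hQ y
      simp only [mfun, mlam]
      rw [this]; push_cast; ring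

/-- Sums over the modes. -/
lemma sum_modes {M : Type*} [AddCommMonoid M] (F : MI d → M) :
    ∑ i, F i = ∑ j, F (Sum.inl j) + (F (Sum.inr false) + F (Sum.inr true)) := by
  rw [Fintype.sum_sum_type, Fintype.sum_bool, add_comm (F (Sum.inr true))]

lemma ev_sum (hκ : 0 ≤ κ) {ι : Type*} (t : Finset ι) (f : ι → XK d s κ) (y : E d) :
    ev (∑ i ∈ t, f i) y = ∑ i ∈ t, ev (f i) y := by
  have := map_sum (evL hκ y) f t
  simpa only [evL_apply] using this

lemma fst_sum' {ι : Type*} (t : Finset ι) (f : ι → XK d s κ × XK d s κ) :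
    (∑ i ∈ t, f i).1 = ∑ i ∈ t, (f i).1 := Prod.fst_sum
lemma snd_sum' {ι : Type*} (t : Finset ι) (f : ι → XK d s κ × XK d s κ) :
    (∑ i ∈ t, f i).2 = ∑ i ∈ t, (f i).2 := Prod.snd_sum

lemma ev_comb_fst (hκ : 0 ≤ κ) (hm : 1 ≤ m) (hQ : IsProfile d m w Q) (c : MI d → ℂ) (y : E d) :
    ev (∑ i, c i • mvec hκ s m w Q i).1 y
      = cf m w Q (c (Sum.inr false)) (fun j => c (Sum.inl j)) (c (Sum.inr true)) y := by
  rw [fst_sum', ev_sum hκ, sum_modes]
  simp only [Prod.smul_fst, ev_smul hκ, ev_mvec_fst hκ hm hQ, mfun, cf]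
  ring

lemma ev_comb_snd (hκ : 0 ≤ κ) (hm : 1 ≤ m) (hQ : IsProfile d m w Q) (c : MI d → ℂ) (y : E d) :
    ev (∑ i, c i • mvec hκ s m w Q i).2 y
      = cg m w Q (c (Sum.inr false)) (fun j => c (Sum.inl j)) (c (Sum.inr true)) y := by
  rw [snd_sum', ev_sum hκ, sum_modes]
  simp only [Prod.smul_snd, ev_smul hκ, ev_mvec_snd hκ hm hQ, mfun, cg]
  ring

lemma mem_span_range_iff {X : Type*} [AddCommGroup X] [Module ℂ X] {ι : Type*} [Fintype ι]
    (v : ι → X) (x : X) : x ∈ Submodule.span ℂ (Set.range v) ↔ ∃ c : ι → ℂ, ∑ i, c i • v i = x :=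
  Submodule.mem_span_range_iff_exists_fun ℂ

/-- The span of the mode pairs is the set of pairs which are pointwise combinations of modes. -/
theorem mem_span_modes (hκ : 0 ≤ κ) (hm : 1 ≤ m) (hQ : IsProfile d m w Q)
    (x : XK d s κ × XK d s κ) :
    x ∈ Submodule.span ℂ (Set.range (mvec hκ s m w Q)) ↔ InModes m w Q (ev x.1) (ev x.2) := by
  rw [mem_span_range_iff]
  constructor
  · rintro ⟨c, rfl⟩
    exact ⟨_, _, _, fun y => ⟨ev_comb_fst hκ hm hQ c y, ev_comb_snd hκ hm hQ c y⟩⟩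
  · rintro ⟨c0, b, c1, h⟩
    refine ⟨fun i => Sum.elim b (fun q => if q then c1 else c0) i, ?_⟩
    refine Prod.ext (ev_injective hκ fun y => ?_) (ev_injective hκ fun y => ?_)
    · rw [ev_comb_fst hκ hm hQ, (h y).1]
      simp
    · rw [ev_comb_snd hκ hm hQ, (h y).2]
      simp

end Vale.Agent.P139.H730
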