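import Vale.Agent.P139.H730.STPack

/-!
# The linear package (ST) in real-linear form
-/

open MeasureTheory Real FourierTransform Filter Topology Set
open scoped ComplexConjugate ContDiff

namespace Vale.Agent.P139.H730

open Vale.Agent.P139.BU Vale.Agent.P139.H42 Vale.Agent.P139.WA

variable {d m s : ℕ} {w : ℝ} {Q : E d → ℂ} {V₁ V₂ : X1 d s}

namespace STData

variable (T : STData m w Q V₁ V₂)

/-- the free flow, real-linear -/
noncomputable def S0r (_ : STData m w Q V₁ V₂) (t : ℝ) :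
    (X1 d s × X1 d s) →L[ℝ] (X1 d s × X1 d s) := (FP d m s w t).restrictScalars ℝ

/-- the perturbed flow, real-linear -/
noncomputable def Sr (t : ℝ) : (X1 d s × X1 d s) →L[ℝ] (X1 d s × X1 d s) :=
  (T.S t).restrictScalars ℝ

/-- the potential part, real-linear -/
noncomputable def Br (_ : STData m w Q V₁ V₂) : (X1 d s × X1 d s) →L[ℝ] (X1 d s × X1 d s) :=
  (BX zero_le_one m V₁ V₂).restrictScalars ℝ

/-- the projection, real-linear -/
noncomputable def Pr : (X1 d s × X1 d s) →L[ℝ] (X1 d s × X1 d s) := T.P.restrictScalars ℝ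

@[simp] lemma S0r_apply (t : ℝ) (x : X1 d s × X1 d s) : T.S0r t x = FP d m s w t x := rfl
@[simp] lemma Sr_apply (t : ℝ) (x : X1 d s × X1 d s) : T.Sr t x = T.S t x := rfl
@[simp] lemma Br_apply (x : X1 d s × X1 d s) : T.Br x = BX zero_le_one m V₁ V₂ x := rfl
@[simp] lemma Pr_apply (x : X1 d s × X1 d s) : T.Pr x = T.P x := rfl

lemma FP_norm_le {t : ℝ} (ht : 0 ≤ t) (x : X1 d s × X1 d s) : ‖FP d m s w t x‖ ≤ ‖x‖ := by
  have h1 : ‖FP d m s w t‖ ≤ 1 := by
    refine (flowP_norm_le zero_le_one _ _ ht).trans ?_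
    rw [Real.exp_le_one_iff]
    have e : (-(aa m : ℂ) + Complex.I * w).re = -aa m := by simp
    rw [e]
    have := aa_nonneg m
    nlinarith
  calc ‖FP d m s w t x‖ ≤ ‖FP d m s w t‖ * ‖x‖ := ContinuousLinearMap.le_opNorm _ _
    _ ≤ 1 * ‖x‖ := by gcongr
    _ = ‖x‖ := one_mul _

theorem S0r_le (t : ℝ) (ht : 0 ≤ t) (x : X1 d s × X1 d s) : ‖T.S0r t x‖ ≤ ‖x‖ :=
  FP_norm_le ht x

theorem duhr (t : ℝ) (ht : 0 ≤ t) (x : X1 d s × X1 d s) :
    T.Sr t x = T.S0r t x + ∫ r in (0 : ℝ)..t, T.S0r (t - r) (T.Br (T.Sr r x)) :=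
  T.pert.duh x t ht

theorem duhr_int (t : ℝ) (ht : 0 ≤ t) (x : X1 d s × X1 d s) :
    IntervalIntegrable (fun r => T.S0r (t - r) (T.Br (T.Sr r x))) volume 0 t :=
  (H25.toIsPert T.pert).intervalIntegrable ht
    ((T.pert.sg.cont x).mono Icc_subset_Ici_self)

theorem decr (t : ℝ) (ht : 0 ≤ t) (x : X1 d s × X1 d s) :
    ‖T.Sr t (x - T.Pr x)‖ ≤ T.C * Real.exp (-T.δ * t) * ‖x‖ := T.dec t ht x

theorem contSr (x : X1 d s × X1 d s) : ContinuousOn (fun t => T.Sr t x) (Ici 0) :=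
  T.pert.sg.cont x

theorem JX_fst_snd {x : X1 d s × X1 d s} (h : x.2 = starX zero_le_one x.1) :
    JX zero_le_one x = x := by
  refine Prod.ext ?_ ?_
  · rw [JX_apply, h, starX_starX]
  · rw [JX_apply, h]

/-- The flow of the projected part of a real pair is a real mode flow. -/
theorem modesr {x : X1 d s × X1 d s} (h : x.2 = starX zero_le_one x.1) :
    ∃ (α : ℝ) (β : Fin d → ℝ) (γ : ℝ), |α| + ∑ i, |β i| + |γ| ≤ T.C * ‖T.Pr x‖ ∧
      ∀ t, 0 ≤ t → ∀ y, ev (T.Sr t (T.Pr x)).1 y =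
        H605.modeOf m w Q α (fun i => Real.exp (t / 2) * β i) (Real.exp t * γ) y := by
  obtain ⟨α, β, γ, h1, h2⟩ := T.modes x (JX_fst_snd h)
  exact ⟨α, β, γ, h1, fun t ht y => (h2 t ht y).1⟩

end STData

end Vale.Agent.P139.H730
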